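import Vale.Agent.P031.Coll.Main

/-!
# The collision lemma: the bound for one shape and the sum over shapes
-/

open Finset
open scoped Classical

namespace Vale.Agent.P031

variable {K : ℕ}

/-- The total loss. -/
noncomputable def shapeLoss (T K k D : ℕ) (C0 Bf : ℝ) : ℝ :=
  (T : ℝ) + ((K : ℝ) + 1) ^ 2 * ((T : ℝ) + 1 + C0) + 2 * (K : ℝ) * (Real.log Bf + D) +
    Real.log ((K : ℝ) + 1) * ((K : ℝ) * (k : ℝ) ^ ((4 : ℝ) / 5))

lemma le_lamS_top {T k : ℕ} {A : Finset ℕ} (hne : A.Nonempty) (htop : topS A = k) {s : ℕ}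
    (hs : s ∈ Ioc T k) : 1 ≤ lamS A s := by
  obtain ⟨q, hq, hqs⟩ := exists_mem_eq_sup A hne kap
  exact card_pos.2 ⟨q, mem_filter.2 ⟨hq, by
    have : s ≤ topS A := htop ▸ (mem_Ioc.1 hs).2
    rwa [topS, hqs] at this⟩⟩

lemma shape_exponent (T k D : ℕ) (hTk : T < k) (a b : Fin K → ℕ) (ha : ∀ i, a i ≤ k)
    (hb : ∀ i, b i ≤ k) (A B : Finset ℕ) (hne : A.Nonempty) (htop : topS A = k) (β : ℝ)
    (hβ : budS T A ≤ β)
    (hx : ∀ s, 0 < s → (univ.filter (fun i => s ≤ a i)).card = lamS A s)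
    (hy : ∀ s, 0 < s → (univ.filter (fun i => s ≤ b i)).card = lamS B s)
    (C0 Bf : ℝ) (hC0 : 0 ≤ C0) (hBf : 1 ≤ Bf) :
    Real.exp ((∑ s ∈ Ioc T k, gw B s * (lamS A s : ℝ)) +
        Real.log ((K : ℝ) + 1) * ((K : ℝ) * (k : ℝ) ^ ((4 : ℝ) / 5))) *
      (Real.exp (∑ c, ((∑ s ∈ range ((shapeSys T k D a b ha hb).cap c + 1), zw T k B s) + C0)) *
        ∏ f ∈ presentF a b, formFac (shapeSys T k D a b ha hb) Bf f) ≤
      Real.exp (β - k + shapeLoss T K k D C0 Bf) := by
  have hlB : 0 ≤ Real.log Bf := Real.log_nonneg hBf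
  have hz := zw_bounds T k B
  -- the forms
  have hforms : ∏ f ∈ presentF a b, formFac (shapeSys T k D a b ha hb) Bf f ≤
      Real.exp (2 * (K : ℝ) * (Real.log Bf + D) -
        ∑ s ∈ Ioc T k, ((lamS A s : ℝ) + lamS B s)) := by
    have e1 : ∀ f, formFac (shapeSys T k D a b ha hb) Bf f =
        Real.exp ((Real.log Bf + D) - (Sum.elim a b f : ℕ)) := by
      intro f
      simp only [formFac, shapeSys]
      conv_lhs => rw [← Real.exp_log (show (0 : ℝ) < Bf by linarith)]
      rw [← Real.exp_add]; ring_nf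
    simp_rw [e1]
    rw [← Real.exp_sum]
    apply Real.exp_le_exp.2
    rw [sum_sub_distrib, sum_const, nsmul_eq_mul]
    have h1 : ((presentF a b).card : ℝ) * (Real.log Bf + D) ≤
        2 * (K : ℝ) * (Real.log Bf + D) := by
      apply mul_le_mul_of_nonneg_right _ (by positivity)
      have : (presentF a b).card ≤ 2 * K := by
        refine le_trans (card_le_univ _) ?_
        simp [two_mul]
      exact_mod_cast this
    have h2 : ∑ s ∈ Ioc T k, ((lamS A s : ℝ) + lamS B s) ≤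
        ∑ f ∈ presentF a b, ((Sum.elim a b f : ℕ) : ℝ) := by
      unfold presentF
      rw [sum_filter_of_ne (fun f _ hf => Nat.pos_of_ne_zero (by simpa using hf)),
        Fintype.sum_sum_type]
      simp only [Sum.elim_inl, Sum.elim_inr]
      rw [sum_add_distrib]
      have key : ∀ (c : Fin K → ℕ) (S : Finset ℕ),
          (∀ s, 0 < s → (univ.filter (fun i => s ≤ c i)).card = lamS S s) →
          ∑ s ∈ Ioc T k, (lamS S s : ℝ) ≤ ∑ i, (c i : ℝ) := by
        intro c S hS
        rw [← Nat.cast_sum, ← Nat.cast_sum, Nat.cast_le]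
        calc ∑ s ∈ Ioc T k, lamS S s = ∑ s ∈ Ioc T k, (univ.filter (fun i => s ≤ c i)).card :=
              sum_congr rfl fun s hs => (hS s (by have := (mem_Ioc.1 hs).1; omega)).symm
          _ = ∑ i, ((Ioc T k).filter (fun s => s ≤ c i)).card := by
              simp only [card_filter]; rw [sum_comm]
          _ ≤ _ := sum_le_sum fun i _ => by
              refine le_trans (card_le_card (t := Ioc 0 (c i)) fun s hs => ?_) (by simp)
              obtain ⟨h1, h2⟩ := mem_filter.1 hs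
              exact mem_Ioc.2 ⟨by have := (mem_Ioc.1 h1).1; omega, h2⟩
      exact add_le_add (key a A hx) (key b B hy)
    linarith
  -- the Euler products
  have hcard : (Fintype.card (CellT K) : ℝ) = ((K : ℝ) + 1) ^ 2 := by
    simp [sq]
  have hsum : ∑ c, ((∑ s ∈ range ((shapeSys T k D a b ha hb).cap c + 1), zw T k B s) + C0) ≤
      ((K : ℝ) + 1) ^ 2 * ((T : ℝ) + 1 + C0) +
        ∑ s ∈ Ioc T k, (lamS A s : ℝ) * (lamS B s) * zw T k B s := by
    have hc : ∀ c : CellT K, (∑ s ∈ range ((shapeSys T k D a b ha hb).cap c + 1), zw T k B s) ≤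
        ((T : ℝ) + 1) + ∑ s ∈ Ioc T k,
          (if s ≤ levOf T a c.1 ∧ s ≤ levOf T b c.2 then zw T k B s else 0) := by
      intro c
      rw [← sum_filter]
      refine le_trans (sum_le_sum_of_subset_of_nonneg (t := range (T + 1) ∪
        (Ioc T k).filter (fun s => s ≤ levOf T a c.1 ∧ s ≤ levOf T b c.2)) ?_
        (fun s _ _ => (hz s).1)) ?_
      · intro s hs
        have h := Nat.lt_succ_iff.1 (mem_range.1 hs)
        have h' : s ≤ levOf T a c.1 ∧ s ≤ levOf T b c.2 := le_min_iff.1 h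
        rcases le_or_gt s T with h1 | h1
        · exact mem_union_left _ (mem_range.2 (by omega))
        · refine mem_union_right _ (mem_filter.2 ⟨mem_Ioc.2 ⟨h1, ?_⟩, h'⟩)
          have h2 := h'.1
          generalize hr : c.1 = r at h2
          cases r with
          | none => simp [levOf] at h2; omega
          | some i => exact h2.trans (ha i)
      · refine le_trans (le_of_le_of_eq (le_add_of_nonneg_right (sum_nonneg fun s _ => (hz s).1))
          (sum_union_inter (f := zw T k B))) ?_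
        gcongr
        calc ∑ s ∈ range (T + 1), zw T k B s ≤ ∑ _s ∈ range (T + 1), (1 : ℝ) :=
              sum_le_sum fun s _ => (hz s).2
          _ = (T : ℝ) + 1 := by simp
    refine le_trans (sum_le_sum fun c _ => add_le_add (hc c) (le_refl C0)) ?_
    rw [sum_add_distrib, sum_add_distrib, sum_const, sum_const, nsmul_eq_mul, nsmul_eq_mul,
      card_univ, hcard, sum_comm (s := univ)]
    have : ∀ s ∈ Ioc T k, (∑ c : CellT K,
        (if s ≤ levOf T a c.1 ∧ s ≤ levOf T b c.2 then zw T k B s else 0)) =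
        (lamS A s : ℝ) * (lamS B s) * zw T k B s := by
      intro s hs
      have hs' := (mem_Ioc.1 hs).1
      rw [← sum_filter, sum_const, nsmul_eq_mul]
      congr 1
      rw [← hx s (by omega), ← hy s (by omega), ← card_filter_option T s hs' a,
        ← card_filter_option T s hs' b, ← Nat.cast_mul, ← card_product]
      congr 2
      ext c
      simp
    rw [sum_congr rfl this]
    linarith
  have hprod : 0 ≤ ∏ f ∈ presentF a b, formFac (shapeSys T k D a b ha hb) Bf f :=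
    prod_nonneg fun f _ => by unfold formFac; positivity
  refine le_trans (mul_le_mul_of_nonneg_left (mul_le_mul (Real.exp_le_exp.2 hsum) hforms hprod
    (Real.exp_pos _).le) (Real.exp_pos _).le) ?_
  rw [← Real.exp_add, ← Real.exp_add]
  apply Real.exp_le_exp.2
  have hQ : ∑ s ∈ Ioc T k, (gw B s * (lamS A s : ℝ) +
      (lamS A s : ℝ) * (lamS B s) * zw T k B s - ((lamS A s : ℝ) + lamS B s)) ≤
      budS T A - ((k : ℝ) - T) := by
    have e : budS T A - ((k : ℝ) - T) = ∑ s ∈ Ioc T k, (Qf (lamS A s) - 1) := by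
      rw [sum_sub_distrib, budS, htop, sum_const, Nat.card_Ioc, nsmul_eq_mul, mul_one,
        Nat.cast_sub hTk.le]
    rw [e]
    refine sum_le_sum fun s hs => ?_
    have h := profile_pointwise (lamS A s) (lamS B s) (le_lamS_top hne htop hs)
    rw [zw, if_pos (mem_Ioc.1 hs), gw]
    linarith
  rw [sum_sub_distrib, sum_add_distrib] at hQ
  unfold shapeLoss
  nlinarith [hQ, hβ]

/-- The per-shape estimates. -/
theorem shape_bound (hM : MertensStmt) (hp : SievePairStmt) (ht : SieveTripleStmt) :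
    ∃ C0 : ℝ, ∃ ee : ℕ, 1 ≤ C0 ∧ ∀ (T K W k : ℕ), T < k → ∀ (β : ℝ) (P : Finset (Rep × Rep))
      (a b : Fin K → ℕ) (enc : Rep × Rep → CellT K → ℕ),
      (∀ p ∈ P, CollPair T K W k β p ∧ EncOK T K k W p a b (enc p)) →
      let L := shapeLoss T K k (Dof W) C0 ((((K : ℝ) + 1) ^ 2 + 1) * C0 * ((k : ℝ) + 4) ^ ee)
      (∑ p ∈ P, (1 : ℝ) / p.1.val ≤ Real.exp (β - k + L)) ∧
        ∀ X : ℝ, 0 ≤ X → (∀ p ∈ P, (p.1.val : ℝ) ≤ X) →
          (P.card : ℝ) ≤ X * Real.exp ((Dof W : ℝ) - k) * Real.exp (β - k + L) := by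
  obtain ⟨C0, ee, hC0, hcore⟩ := core_bound hM hp ht
  refine ⟨C0, ee, hC0, fun T K W k hTk β P a b enc hP => ?_⟩
  intro L
  set Bf : ℝ := (((K : ℝ) + 1) ^ 2 + 1) * C0 * ((k : ℝ) + 4) ^ ee with hBf
  rcases P.eq_empty_or_nonempty with rfl | ⟨p0, hp0⟩
  · refine ⟨by simp; positivity, fun X hX _ => by simp; positivity⟩
  obtain ⟨hc0, he0⟩ := hP p0 hp0
  have ha : ∀ i, a i ≤ k := he0.left.range
  have hb : ∀ i, b i ≤ k := he0.right.range
  set σ := shapeSys T k (Dof W) a b ha hb with hσ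
  set z := zw T k p0.2.1 with hzdef
  have hk4 : (1 : ℝ) ≤ ((k : ℝ) + 4) ^ ee :=
    one_le_pow₀ (by linarith [Nat.cast_nonneg (α := ℝ) k])
  have hBf1 : 1 ≤ Bf := by
    rw [hBf]
    exact one_le_mul_of_one_le_of_one_le
      (one_le_mul_of_one_le_of_one_le (by nlinarith [Nat.cast_nonneg (α := ℝ) K]) hC0) hk4
  obtain ⟨hrec, hcnt⟩ := hcore σ z (fun c => by convert! formsAt_card_le T k (Dof W) a b ha hb c using 3)
    (fun s => zw_bounds T k p0.2.1 s) Bf (by simp [hσ, shapeSys, hBf, sq])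
  have hne : p0.1.1.Nonempty := hc0.1
  have htop : topS p0.1.1 = k := hc0.2.2.2.2.2.2.2.2.2.2.1
  have hβ : budS T p0.1.1 ≤ β := hc0.2.2.2.2.2.2.2.2.2.2.2.2.1
  have hexp := shape_exponent T k (Dof W) hTk a b ha hb p0.1.1 p0.2.1 hne htop β hβ
    he0.left.lam_eq he0.right.lam_eq C0 Bf (by linarith) hBf1
  set G : ℝ := (∑ s ∈ Ioc T k, gw p0.2.1 s * (lamS p0.1.1 s : ℝ)) +
        Real.log ((K : ℝ) + 1) * ((K : ℝ) * (k : ℝ) ^ ((4 : ℝ) / 5)) with hG
  have hw : ∀ p ∈ P, 1 ≤ Real.exp G * wprod z (enc p) ∧ total (enc p) = p.1.val := by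
    intro p hp
    obtain ⟨hc, he⟩ := hP p hp
    refine ⟨?_, he.total_eq⟩
    have hlB : ∀ s, 0 < s → lamS p.2.1 s = lamS p0.2.1 s := fun s hs => by
      rw [← he.right.lam_eq s hs, ← he0.right.lam_eq s hs]
    have hlA : ∀ s, 0 < s → lamS p.1.1 s = lamS p0.1.1 s := fun s hs => by
      rw [← he.left.lam_eq s hs, ← he0.left.lam_eq s hs]
    obtain ⟨-, hc1, hc2, -, hn, -, ht1, -, hs1, -, htop', -, -, -, hsq, -⟩ := hc
    have h := weight_lower T K k hTk p.1.1 p.2.1 hc1 (fun q hq =>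
      ⟨(hn q hq).1, (hn q hq).2, (le_sup (f := kap) hq).trans htop'.le⟩) p.1.2 hs1 ht1 hsq
    have hzeq : zw T k p.2.1 = z := by
      funext s
      simp only [hzdef, zw]
      split_ifs with hs
      · rw [hlB s (by omega)]
      · rfl
    rw [hzeq] at h
    have hwp : wprod z (enc p) = wt (fun q => z (kap q)) (shiftProd p.1.1 * p.1.2) := by
      unfold wprod
      rw [← wt_prod _ univ (enc p) (fun c _ => (he.pos c).ne')]
      congr 1
      exact he.total_eq
    rw [hwp]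
    refine le_trans ?_ (mul_le_mul_of_nonneg_left h (Real.exp_pos _).le)
    rw [← Real.exp_add]
    apply Real.one_le_exp
    have hsum : ∑ s ∈ Ioc T k, gw p.2.1 s * (lamS p.1.1 s : ℝ) =
        ∑ s ∈ Ioc T k, gw p0.2.1 s * (lamS p0.1.1 s : ℝ) := by
      refine sum_congr rfl fun s hs => ?_
      have : 0 < s := by have := (mem_Ioc.1 hs).1; omega
      simp only [gw, hlA s this, hlB s this]
    have hcardB : Real.log ((p.2.1.card : ℝ) + 1) ≤ Real.log ((K : ℝ) + 1) := by
      apply Real.log_le_log (by positivity)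
      have : (p.2.1.card : ℝ) ≤ K := by exact_mod_cast hc2
      linarith
    have := mul_le_mul_of_nonneg_right hcardB
      (show 0 ≤ (K : ℝ) * (k : ℝ) ^ ((4 : ℝ) / 5) by positivity)
    rw [hG, hsum]
    linarith
  have hinj : Set.InjOn enc P := by
    intro p hp q hq hpq
    obtain ⟨-, hep⟩ := hP p hp
    obtain ⟨-, heq⟩ := hP q hq
    have h1 : p.1 = q.1 := by
      refine Prod.ext ?_ ?_
      · rw [hep.left.recover, heq.left.recover, hpq]
      · rw [← hep.left.none_eq, ← heq.left.none_eq, hpq]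
    have h2 : p.2 = q.2 := by
      refine Prod.ext ?_ ?_
      · rw [hep.right.recover, heq.right.recover, hpq]
      · rw [← hep.right.none_eq, ← heq.right.none_eq, hpq]
    exact Prod.ext h1 h2
  have hadm : ∀ e ∈ P.image enc, Adm σ (presentF a b) e := by
    intro e he
    obtain ⟨p, hp, rfl⟩ := mem_image.1 he
    exact enc_adm (hP p hp).1 (hP p hp).2 ha hb
  constructor
  · refine le_trans ?_ hexp
    have h := mul_le_mul_of_nonneg_left (hrec (presentF a b) (P.image enc) hadm) (Real.exp_pos G).le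
    rw [sum_image hinj, mul_sum] at h
    refine le_trans (sum_le_sum fun p hp => ?_) h
    rw [mul_div_assoc', (hw p hp).2]
    exact div_le_div_of_nonneg_right (hw p hp).1 (Nat.cast_nonneg _)
  · intro X hX hPX
    have hmax : ∃ f ∈ presentF a b, σ.ks f = σ.k := by
      obtain ⟨q, hq, hqk⟩ := exists_mem_eq_sup p0.1.1 hne kap
      have h1 : 1 ≤ lamS p0.1.1 k := card_pos.2 ⟨q, mem_filter.2 ⟨hq, by
        rw [← hqk]; exact htop.symm.le⟩⟩
      rw [← he0.left.lam_eq k (by omega)] at h1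
      obtain ⟨i, hi⟩ := card_pos.1 h1
      have hik : a i = k := le_antisymm (ha i) (mem_filter.1 hi).2
      exact ⟨Sum.inl i, mem_filter.2 ⟨mem_univ _, by simp [hik]; omega⟩, by simp [hσ, shapeSys, hik]⟩
    have h := hcnt (presentF a b) (P.image enc) X hX hmax (fun e he => by
      refine ⟨hadm e he, ?_⟩
      obtain ⟨p, hp, rfl⟩ := mem_image.1 he
      rw [(hw p hp).2]
      exact hPX p hp)
    rw [sum_image hinj] at h
    calc (P.card : ℝ) = ∑ _p ∈ P, (1 : ℝ) := by simp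
      _ ≤ ∑ p ∈ P, Real.exp G * wprod z (enc p) := sum_le_sum fun p hp => (hw p hp).1
      _ = Real.exp G * ∑ p ∈ P, wprod z (enc p) := by rw [mul_sum]
      _ ≤ _ := mul_le_mul_of_nonneg_left h (Real.exp_pos G).le
      _ = X * Real.exp ((Dof W : ℝ) - k) * (Real.exp G *
            (Real.exp (∑ c, ((∑ s ∈ range (σ.cap c + 1), z s) + C0)) *
              ∏ f ∈ presentF a b, formFac σ Bf f)) := by simp only [hσ, shapeSys]; ring
      _ ≤ _ := mul_le_mul_of_nonneg_left hexp (by positivity)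

/-- All losses are bounded by the error term. -/
lemma loss_le (C0 : ℝ) (hC0 : 1 ≤ C0) (ee : ℕ) : ∃ C : ℝ, ∀ T K W k : ℕ, T < k →
    shapeLoss T K k (Dof W) C0 ((((K : ℝ) + 1) ^ 2 + 1) * C0 * ((k : ℝ) + 4) ^ ee) +
      2 * (K : ℝ) * Real.log ((k : ℝ) + 1) + (Dof W : ℝ) ≤ C * collErr T K W k := by
  refine ⟨40 + C0 + 2 * C0 + 12 * ee, fun T K W k hTk => ?_⟩
  unfold collErr shapeLoss
  set x : ℝ := (k : ℝ) ^ ((4 : ℝ) / 5) with hx
  set U : ℝ := (T : ℝ) + x + Real.log ((W : ℝ) + 2) + 1 with hU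
  set N : ℝ := (K : ℝ) + 1 with hN
  have hk : (1 : ℝ) ≤ k := by
    have : 1 ≤ k := by omega
    exact_mod_cast this
  have hK : (0 : ℝ) ≤ K := Nat.cast_nonneg K
  have hT : (0 : ℝ) ≤ T := Nat.cast_nonneg T
  have hlW : 0 ≤ Real.log ((W : ℝ) + 2) := Real.log_nonneg (by linarith [Nat.cast_nonneg (α := ℝ) W])
  have hx0 : 0 ≤ x := by positivity
  have hU1 : 1 ≤ U := by rw [hU]; linarith
  have hlk : Real.log (k : ℝ) ≤ 2 * x := by
    have h := Real.log_le_rpow_div (Nat.cast_nonneg k) (show (0 : ℝ) < 4 / 5 by norm_num)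
    rw [← hx] at h
    linarith
  have hk4 : Real.log ((k : ℝ) + 4) ≤ 6 * U := by
    have h1 : Real.log ((k : ℝ) + 4) ≤ Real.log (5 * (k : ℝ)) :=
      Real.log_le_log (by linarith) (by linarith)
    rw [Real.log_mul (by norm_num) (by linarith)] at h1
    have := Real.log_le_sub_one_of_pos (show (0 : ℝ) < 5 by norm_num)
    linarith
  have hk1 : Real.log ((k : ℝ) + 1) ≤ 6 * U :=
    le_trans (Real.log_le_log (by linarith) (by linarith)) hk4
  have hD : (Dof W : ℝ) ≤ 5 * U := by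
    unfold Dof
    push_cast
    have h1 := Nat.ceil_lt_add_one
      (Real.log_nonneg (show (1 : ℝ) ≤ 2 * ((W : ℝ) + 1) by linarith [Nat.cast_nonneg (α := ℝ) W]))
    have h2 : Real.log (2 * ((W : ℝ) + 1)) ≤ Real.log 2 + Real.log ((W : ℝ) + 2) := by
      rw [← Real.log_mul (by norm_num) (by positivity)]
      exact Real.log_le_log (by positivity) (by linarith)
    linarith [Real.log_two_lt_d9]
  have hBl : Real.log ((N ^ 2 + 1) * C0 * ((k : ℝ) + 4) ^ ee) ≤ N ^ 2 + C0 + (ee : ℝ) * (6 * U) := by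
    rw [Real.log_mul (by positivity) (by positivity), Real.log_mul (by positivity) (by linarith),
      Real.log_pow]
    have h1 := Real.log_le_sub_one_of_pos (show (0 : ℝ) < N ^ 2 + 1 by positivity)
    have h2 := Real.log_le_sub_one_of_pos (show (0 : ℝ) < C0 by linarith)
    have h3 := mul_le_mul_of_nonneg_left hk4 (Nat.cast_nonneg (α := ℝ) ee)
    linarith
  have hlN : Real.log N ≤ N := by
    linarith [Real.log_le_sub_one_of_pos (show (0 : ℝ) < N by positivity)]
  have hN1 : 1 ≤ N := by rw [hN]; linarith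
  have hN3 : N ^ 2 ≤ N ^ 3 := pow_le_pow_right₀ hN1 (by norm_num)
  have hKN : (K : ℝ) ≤ N := by rw [hN]; linarith
  have hN31 : 1 ≤ N ^ 3 := one_le_pow₀ hN1
  have hNN : N ≤ N ^ 3 := le_self_pow₀ hN1 (by norm_num)
  have hE : 0 ≤ N ^ 3 * U := by positivity
  have t1 : (T : ℝ) ≤ N ^ 3 * U := by nlinarith
  have t2 : N ^ 2 * ((T : ℝ) + 1 + C0) ≤ (2 + C0) * (N ^ 3 * U) := by
    have e : (T : ℝ) + 1 + C0 ≤ (2 + C0) * U := by
      have : C0 ≤ C0 * U := le_mul_of_one_le_right (by linarith) hU1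
      nlinarith
    calc N ^ 2 * ((T : ℝ) + 1 + C0) ≤ N ^ 3 * ((2 + C0) * U) :=
          mul_le_mul hN3 e (by linarith) (by positivity)
      _ = _ := by ring
  have t3 : 2 * (K : ℝ) * (N ^ 2) ≤ 2 * (N ^ 3 * U) := by
    calc 2 * (K : ℝ) * N ^ 2 ≤ 2 * N * N ^ 2 := by gcongr
      _ = 2 * (N ^ 3 * 1) := by ring
      _ ≤ _ := by gcongr
  have t4 : ∀ y : ℝ, 0 ≤ y → (K : ℝ) * (y * U) ≤ y * (N ^ 3 * U) := by
    intro y hy
    calc (K : ℝ) * (y * U) ≤ N ^ 3 * (y * U) := by
          exact mul_le_mul_of_nonneg_right (hKN.trans hNN) (by positivity)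
      _ = _ := by ring
  have t5 : Real.log N * ((K : ℝ) * x) ≤ N ^ 3 * U := by
    calc Real.log N * ((K : ℝ) * x) ≤ N * (N * U) := by
          apply mul_le_mul hlN _ (by positivity) (by linarith)
          exact mul_le_mul hKN (by rw [hU]; linarith) hx0 (by linarith)
      _ = N ^ 2 * U := by ring
      _ ≤ _ := by gcongr
  have t6 : (Dof W : ℝ) ≤ 5 * (N ^ 3 * U) := by
    have : U ≤ N ^ 3 * U := le_mul_of_one_le_left (by linarith) hN31
    linarith
  have hK2 : 0 ≤ 2 * (K : ℝ) := by positivity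
  have a1 := mul_le_mul_of_nonneg_left hBl hK2
  have a2 := mul_le_mul_of_nonneg_left hD hK2
  have a3 := mul_le_mul_of_nonneg_left hk1 hK2
  have a4 : 2 * (K : ℝ) * C0 ≤ 2 * C0 * (N ^ 3 * U) := by
    have e := t4 (2 * C0) (by linarith)
    have : C0 ≤ C0 * U := le_mul_of_one_le_right (by linarith) hU1
    nlinarith
  have a5 := t4 (12 * (ee : ℝ)) (by positivity)
  have a6 := t4 10 (by norm_num)
  have a7 := t4 12 (by norm_num)
  linarith

/-- The two collision statements. -/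
theorem collision (hM : MertensStmt) (hp : SievePairStmt) (ht : SieveTripleStmt) :
    CollSumStmt ∧ CollCountStmt := by
  obtain ⟨C0, ee, hC0, hshape⟩ := shape_bound hM hp ht
  obtain ⟨C, hC⟩ := loss_le C0 hC0 ee
  have main : ∀ (T K W k : ℕ), T < k → ∀ (β : ℝ) (P : Finset (Rep × Rep)),
      (∀ p ∈ P, CollPair T K W k β p) →
      (∑ p ∈ P, (1 : ℝ) / p.1.val ≤ Real.exp (β - k + C * collErr T K W k)) ∧
      ∀ X : ℝ, 0 ≤ X → (∀ p ∈ P, (p.1.val : ℝ) ≤ X) →
        (P.card : ℝ) ≤ X * Real.exp (β - 2 * (k : ℝ) + C * collErr T K W k) := by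
    intro T K W k hTk β P hP
    choose! fa fb fe henc using fun p (h : p ∈ P) => exists_enc (hP p h)
    set sh : Rep × Rep → (Fin K → ℕ) × (Fin K → ℕ) := fun p => (fa p, fb p) with hsh
    set box := Fintype.piFinset (fun _ : Fin K => range (k + 1)) with hbox
    have hmaps : ∀ p ∈ P, sh p ∈ box ×ˢ box := fun p hp => mem_product.2
      ⟨Fintype.mem_piFinset.2 fun i => mem_range.2 (Nat.lt_succ_of_le ((henc p hp).left.range i)),
        Fintype.mem_piFinset.2 fun i => mem_range.2 (Nat.lt_succ_of_le ((henc p hp).right.range i))⟩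
    have hboxcard : ((box ×ˢ box).card : ℝ) = Real.exp (2 * (K : ℝ) * Real.log ((k : ℝ) + 1)) := by
      rw [mul_assoc, ← mul_left_comm (K : ℝ) 2, Real.exp_nat_mul, ← Nat.cast_ofNat,
        Real.exp_nat_mul, Real.exp_log (by positivity), card_product, hbox, Fintype.card_piFinset]
      simp [mul_pow, sq]
    set L := shapeLoss T K k (Dof W) C0 ((((K : ℝ) + 1) ^ 2 + 1) * C0 * ((k : ℝ) + 4) ^ ee) with hL
    have hfib : ∀ ab, ∀ p ∈ P.filter (fun p => sh p = ab),
        CollPair T K W k β p ∧ EncOK T K k W p ab.1 ab.2 (fe p) := by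
      intro ab p hp
      obtain ⟨h1, h2⟩ := mem_filter.1 hp
      subst h2
      exact ⟨hP p h1, henc p h1⟩
    have hloss := hC T K W k hTk
    rw [← hL] at hloss
    have hD0 : (0 : ℝ) ≤ Dof W := Nat.cast_nonneg _
    constructor
    · rw [← sum_fiberwise_of_maps_to hmaps]
      refine le_trans (sum_le_sum fun ab _ =>
        (hshape T K W k hTk β _ ab.1 ab.2 fe (hfib ab)).1) ?_
      rw [sum_const, nsmul_eq_mul, hboxcard, ← Real.exp_add]
      exact Real.exp_le_exp.2 (by linarith)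
    · intro X hX hPX
      rw [card_eq_sum_card_fiberwise hmaps, Nat.cast_sum]
      refine le_trans (sum_le_sum fun ab _ =>
        (hshape T K W k hTk β _ ab.1 ab.2 fe (hfib ab)).2 X hX
          (fun p hp => hPX p (mem_filter.1 hp).1)) ?_
      rw [sum_const, nsmul_eq_mul, hboxcard, mul_assoc X, ← Real.exp_add, mul_left_comm,
        ← Real.exp_add]
      exact mul_le_mul_of_nonneg_left (Real.exp_le_exp.2 (by linarith)) hX
  refine ⟨⟨C, fun T K W k _ _ hTk β P hP => (main T K W k hTk β P hP).1⟩,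
    ⟨C, fun T K W k _ _ hTk β X P hX hP => ?_⟩⟩
  exact (main T K W k hTk β P (fun p hp => (hP p hp).1)).2 X (by linarith) (fun p hp => (hP p hp).2)

end Vale.Agent.P031
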