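import Vale.Agent.P031.Coll.Forms

/-!
# Systems of prime forms in product variables: the induction on forms
-/

open Finset
open scoped Classical

namespace Vale.Agent.P031

variable {C Φ : Type} [Fintype C] [Fintype Φ]

/-- A system of forms: the cells of each form, the levels, the caps. -/
structure Sys (C Φ : Type) where
  S : Φ → Finset C
  cap : C → ℕ
  ks : Φ → ℕ
  k : ℕ
  D : ℕ
  ks_le : ∀ f, ks f ≤ k

/-- The value of a form. -/
def fval (σ : Sys C Φ) (e : C → ℕ) (f : Φ) : ℕ := ∏ c ∈ σ.S f, e c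

/-- The admissible assignments. -/
def Adm (σ : Sys C Φ) (F : Finset Φ) (e : C → ℕ) : Prop :=
  (∀ c, 0 < e c ∧ Smooth (σ.cap c) (e c)) ∧
  (∀ f ∈ F, (fval σ e f + 1).Prime ∧ kap (fval σ e f + 1) = σ.ks f ∧
    ∃ r : ℕ, r.Prime ∧ r ∣ fval σ e f ∧ σ.ks f ≤ kap r + σ.D) ∧
  (∀ f ∈ F, ∀ g ∈ F, f ≠ g → fval σ e f ≠ fval σ e g)

/-- Product of the weights. -/
noncomputable def wprod (z : ℕ → ℝ) (e : C → ℕ) : ℝ := ∏ c, wt (fun p => z (kap p)) (e c)

/-- The value of an assignment. -/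
def total (e : C → ℕ) : ℕ := ∏ c, e c

lemma wprod_nonneg {z : ℕ → ℝ} (hz : ∀ s, 0 ≤ z s) (e : C → ℕ) : 0 ≤ wprod z e :=
  prod_nonneg fun _ _ => wt_nonneg _ fun _ _ => hz _

lemma total_update (e : C → ℕ) (c : C) {P : ℕ} (hP : P ∣ e c) :
    total e = P * total (Function.update e c (e c / P)) := by
  unfold total
  rw [← mul_prod_erase univ e (mem_univ c), ← mul_prod_erase univ _ (mem_univ c)]
  rw [Function.update_self, ← mul_assoc, Nat.mul_div_cancel' hP]
  congr 1
  refine prod_congr rfl fun d hd => ?_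
  rw [Function.update_of_ne (ne_of_mem_erase hd)]

lemma wprod_update (z : ℕ → ℝ) (e : C → ℕ) (c : C) {P : ℕ} (hP : P.Prime) (hd : P ∣ e c)
    (h0 : 0 < e c) :
    wprod z e = z (kap P) * wprod z (Function.update e c (e c / P)) := by
  unfold wprod
  rw [← mul_prod_erase univ (fun d => wt (fun p => z (kap p)) (e d)) (mem_univ c),
    ← mul_prod_erase univ (fun d => wt (fun p => z (kap p)) (Function.update e c (e c / P) d))
      (mem_univ c)]
  simp only [Function.update_self]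
  rw [← mul_assoc]
  congr 1
  · conv_lhs => rw [← Nat.mul_div_cancel' hd]
    rw [wt_mul _ hP.ne_zero (Nat.div_pos (Nat.le_of_dvd h0 hd) hP.pos).ne', wt_prime _ hP]
  · refine prod_congr rfl fun d hd => ?_
    rw [Function.update_of_ne (ne_of_mem_erase hd)]

/-- The forms containing a cell. -/
noncomputable def formsAt (σ : Sys C Φ) (F : Finset Φ) (c : C) : Finset Φ :=
  F.filter (fun f => c ∈ σ.S f)

/-- Data of the extraction of the largest relevant prime. -/
structure Extract (σ : Sys C Φ) (F : Finset Φ) (e : C → ℕ) (c : C) (P : ℕ) : Prop where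
  prime : P.Prime
  dvd : P ∣ e c
  nonempty : (formsAt σ F c).Nonempty
  big : ∀ f ∈ F, σ.ks f ≤ kap P + σ.D

lemma exists_extract (σ : Sys C Φ) {F : Finset Φ} (hF : F.Nonempty) {e : C → ℕ}
    (h : Adm σ F e) : ∃ c P, Extract σ F e c P := by
  set R : Finset ℕ := (F.biUnion σ.S).biUnion (fun c => (e c).primeFactors) with hR
  have hmem : ∀ f ∈ F, ∀ r : ℕ, r.Prime → r ∣ fval σ e f → r ∈ R := by
    intro f hf r hr hrd
    obtain ⟨c, hc, hcd⟩ := (Prime.dvd_finsetProd_iff (Nat.prime_iff.1 hr) e).1 hrd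
    simp only [hR, mem_biUnion]
    exact ⟨c, ⟨f, hf, hc⟩, Nat.mem_primeFactors.2 ⟨hr, hcd, (h.1 c).1.ne'⟩⟩
  have hne : R.Nonempty := by
    obtain ⟨f, hf⟩ := hF
    obtain ⟨-, -, r, hr, hrd, -⟩ := h.2.1 f hf
    exact ⟨r, hmem f hf r hr hrd⟩
  obtain ⟨hPR⟩ : PLift (R.max' hne ∈ R) := ⟨max'_mem R hne⟩
  simp only [hR, mem_biUnion] at hPR
  obtain ⟨c, ⟨f, hf, hc⟩, hP⟩ := hPR
  have hP' := Nat.mem_primeFactors.1 hP
  refine ⟨c, R.max' hne, hP'.1, hP'.2.1, ⟨f, mem_filter.2 ⟨hf, hc⟩⟩, fun g hg => ?_⟩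
  obtain ⟨-, -, r, hr, hrd, hk⟩ := h.2.1 g hg
  refine hk.trans (Nat.add_le_add_right ?_ _)
  exact kap_mono hr.two_le (le_max' R r (hmem g hg r hr hrd))

lemma fval_extract (σ : Sys C Φ) (e : C → ℕ) {c : C} {P : ℕ} (hP : P ∣ e c) (f : Φ) :
    fval σ e f = if c ∈ σ.S f then P * fval σ (Function.update e c (e c / P)) f
      else fval σ (Function.update e c (e c / P)) f := by
  unfold fval
  split_ifs with hc
  · rw [← mul_prod_erase _ e hc, ← mul_prod_erase _ _ hc, Function.update_self, ← mul_assoc,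
      Nat.mul_div_cancel' hP]
    congr 1
    refine prod_congr rfl fun d hd => ?_
    rw [Function.update_of_ne (ne_of_mem_erase hd)]
  · refine prod_congr rfl fun d hd => ?_
    rw [Function.update_of_ne]
    rintro rfl
    exact hc hd

lemma fval_pos (σ : Sys C Φ) {e : C → ℕ} (h : ∀ c, 0 < e c) (f : Φ) : 0 < fval σ e f :=
  prod_pos fun c _ => h c

lemma adm_update (σ : Sys C Φ) {F : Finset Φ} {e : C → ℕ} (h : Adm σ F e) {c : C} {P : ℕ}
    (hP : P ∣ e c) :
    Adm σ (F \ formsAt σ F c) (Function.update e c (e c / P)) := by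
  have hv : ∀ f ∈ F \ formsAt σ F c,
      f ∈ F ∧ fval σ (Function.update e c (e c / P)) f = fval σ e f := by
    intro f hf
    obtain ⟨hf1, hf2⟩ := mem_sdiff.1 hf
    have hc : c ∉ σ.S f := fun hc => hf2 (mem_filter.2 ⟨hf1, hc⟩)
    rw [fval_extract σ e hP f, if_neg hc]
    exact ⟨hf1, rfl⟩
  refine ⟨fun d => ?_, fun f hf => ?_, fun f hf g hg hne => ?_⟩
  · rcases eq_or_ne d c with rfl | hd
    · rw [Function.update_self]
      have h1 : 0 < e d / P :=
        Nat.div_pos (Nat.le_of_dvd (h.1 d).1 hP) (Nat.pos_of_dvd_of_pos hP (h.1 d).1)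
      refine ⟨h1, fun p hp => (h.1 d).2 p ?_⟩
      exact Nat.primeFactors_mono (Nat.div_dvd_of_dvd hP) (h.1 d).1.ne' hp
    · rw [Function.update_of_ne hd]; exact h.1 d
  · rw [(hv f hf).2]; exact h.2.1 f (hv f hf).1
  · rw [(hv f hf).2, (hv g hg).2]; exact h.2.2 f (hv f hf).1 g (hv g hg).1 hne

/-- The primes occurring above one reduced assignment satisfy the hypotheses of `forms_bound`. -/
lemma fibre_forms (σ : Sys C Φ) {F : Finset Φ} {c : C} {e' : C → ℕ}
    (h2 : ∀ c, (Finset.univ.filter (fun f => c ∈ σ.S f)).card ≤ 2)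
    (E : Finset (C → ℕ)) (hE : ∀ e ∈ E, Adm σ F e) (P : (C → ℕ) → ℕ)
    (hP : ∀ e ∈ E, Extract σ F e c (P e) ∧ Function.update e c (e c / P e) = e')
    (hne : E.Nonempty) :
    let A := (formsAt σ F c).image (fun f => fval σ e' f)
    A.card = (formsAt σ F c).card ∧ 1 ≤ A.card ∧ A.card ≤ 2 ∧
    (∀ a ∈ A, 0 < a ∧ (a : ℝ) ≤ Real.exp (Real.exp ((σ.k : ℝ) + 1))) ∧
    (∀ p ∈ E.image P, p.Prime ∧ ∀ a ∈ A, (a * p + 1).Prime) ∧ Set.InjOn P E := by
  intro A
  obtain ⟨e0, he0⟩ := hne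
  obtain ⟨hx0, hu0⟩ := hP e0 he0
  have hval : ∀ e ∈ E, ∀ f ∈ formsAt σ F c, fval σ e f = P e * fval σ e' f := by
    intro e he f hf
    rw [fval_extract σ e (hP e he).1.dvd f, if_pos (mem_filter.1 hf).2, (hP e he).2]
  have hcard : A.card = (formsAt σ F c).card := by
    apply card_image_of_injOn
    intro f hf g hg hfg
    by_contra hne
    apply (hE e0 he0).2.2 f (mem_filter.1 hf).1 g (mem_filter.1 hg).1 hne
    rw [hval e0 he0 f hf, hval e0 he0 g hg]
    simp only at hfg
    rw [hfg]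
  refine ⟨hcard, ?_, ?_, ?_, ?_, ?_⟩
  · rw [hcard]; exact card_pos.2 hx0.nonempty
  · rw [hcard]
    exact le_trans (card_le_card (fun f hf => mem_filter.2 ⟨mem_univ f, (mem_filter.1 hf).2⟩)) (h2 c)
  · intro a ha
    obtain ⟨f, hf, rfl⟩ := mem_image.1 ha
    obtain ⟨hp1, hk, -⟩ := (hE e0 he0).2.1 f (mem_filter.1 hf).1
    have h1 : 0 < fval σ e0 f := fval_pos σ (fun d => ((hE e0 he0).1 d).1) f
    rw [hval e0 he0 f hf] at h1 hp1 hk
    have ha0 : 0 < fval σ e' f := Nat.pos_of_mul_pos_left h1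
    refine ⟨ha0, le_trans ?_ (le_exp_exp_of_prime hp1 (by rw [hk]; exact σ.ks_le f))⟩
    have : fval σ e' f ≤ P e0 * fval σ e' f + 1 :=
      le_trans (Nat.le_mul_of_pos_left _ hx0.prime.pos) (Nat.le_succ _)
    exact_mod_cast this
  · intro p hp
    obtain ⟨e, he, rfl⟩ := mem_image.1 hp
    refine ⟨(hP e he).1.prime, fun a ha => ?_⟩
    obtain ⟨f, hf, rfl⟩ := mem_image.1 ha
    have h := ((hE e he).2.1 f (mem_filter.1 hf).1).1
    rw [hval e he f hf] at h
    rwa [mul_comm]
  · intro a ha b hb hab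
    funext d
    rcases eq_or_ne d c with rfl | hd
    · have ea : e' d = a d / P a := by rw [← (hP a ha).2, Function.update_self]
      have eb : e' d = b d / P b := by rw [← (hP b hb).2, Function.update_self]
      rw [← Nat.mul_div_cancel' (hP a ha).1.dvd, ← Nat.mul_div_cancel' (hP b hb).1.dvd, ← ea, ← eb,
        hab]
    · have ea : e' d = a d := by rw [← (hP a ha).2, Function.update_of_ne hd]
      have eb : e' d = b d := by rw [← (hP b hb).2, Function.update_of_ne hd]
      rw [← ea, ← eb]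

/-- The per-form factor. -/
noncomputable def formFac (σ : Sys C Φ) (B : ℝ) (f : Φ) : ℝ :=
  B * Real.exp ((σ.D : ℝ) - σ.ks f)

/-- The step of the induction, abstractly. -/
lemma extract_sum (σ : Sys C Φ) {F : Finset Φ} (hF : F.Nonempty) (g : (C → ℕ) → ℝ)
    (g' : (C → ℕ) → ℝ) (B : C → ℝ) (M : C → ℝ) (E : Finset (C → ℕ))
    (hE : ∀ e ∈ E, Adm σ F e) (hB : ∀ c, (formsAt σ F c).Nonempty → 0 ≤ B c)
    (hfib : ∀ c, ∀ e' : C → ℕ, ∀ E' ⊆ E, E'.Nonempty → ∀ P : (C → ℕ) → ℕ,
      (∀ e ∈ E', Extract σ F e c (P e) ∧ Function.update e c (e c / P e) = e') →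
      ∑ e ∈ E', g e ≤ B c * g' e')
    (hrest : ∀ c, (formsAt σ F c).Nonempty →
      ∀ E' : Finset (C → ℕ), (∀ e ∈ E', Adm σ (F \ formsAt σ F c) e) →
      ∑ e ∈ E', g' e ≤ M c) (hBM : ∀ c, 0 ≤ B c * M c) :
    ∑ e ∈ E, g e ≤ ∑ c, B c * M c := by
  have hall : ∀ e ∈ E, ∃ c P, Extract σ F e c P :=
    fun e he => exists_extract σ hF (hE e he)
  rcases E.eq_empty_or_nonempty with rfl | ⟨e0, he0⟩
  · simp only [sum_empty]; exact sum_nonneg fun c _ => hBM c
  haveI : Nonempty C := ⟨(hall e0 he0).choose⟩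
  set cc : (C → ℕ) → C := fun e =>
    if h : ∃ c P, Extract σ F e c P then h.choose else Classical.arbitrary C with hcc
  set PP : (C → ℕ) → ℕ := fun e =>
    if h : ∃ c P, Extract σ F e c P then h.choose_spec.choose else 0 with hPP
  have hx : ∀ e ∈ E, Extract σ F e (cc e) (PP e) := by
    intro e he
    simp only [hcc, hPP, dif_pos (hall e he)]
    exact (hall e he).choose_spec.choose_spec
  rw [← sum_fiberwise E cc g]
  refine sum_le_sum fun c _ => ?_
  rcases (E.filter (fun e => cc e = c)).eq_empty_or_nonempty with h0 | ⟨e1, he1⟩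
  · rw [h0]; simp [hBM c]
  have hne : (formsAt σ F c).Nonempty := by
    obtain ⟨h1, h2⟩ := mem_filter.1 he1
    rw [← h2]; exact (hx e1 h1).nonempty
  set Ec := E.filter (fun e => cc e = c) with hEc
  set red : (C → ℕ) → (C → ℕ) := fun e => Function.update e c (e c / PP e) with hred
  have hmap : ∀ e ∈ Ec, red e ∈ Ec.image red := fun e he => mem_image_of_mem _ he
  rw [← sum_fiberwise_of_maps_to hmap]
  have hx' : ∀ e ∈ Ec, Extract σ F e c (PP e) := by
    intro e he
    obtain ⟨h1, h2⟩ := mem_filter.1 he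
    have := hx e h1
    rwa [h2] at this
  refine le_trans (sum_le_sum (g := fun e' => B c * g' e') fun e' he' => ?_) ?_
  · have hEne : (Ec.filter (fun e => red e = e')).Nonempty := by
      obtain ⟨e, he, rfl⟩ := mem_image.1 he'
      exact ⟨e, mem_filter.2 ⟨he, rfl⟩⟩
    refine hfib c e' _ (fun e he => (mem_filter.1 (mem_filter.1 he).1).1) hEne PP ?_
    intro e he
    obtain ⟨h1, h2⟩ := mem_filter.1 he
    exact ⟨hx' e h1, h2⟩
  · rw [← mul_sum]
    refine mul_le_mul_of_nonneg_left (hrest c hne _ ?_) (hB c hne)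
    intro e' he'
    obtain ⟨e, he, rfl⟩ := mem_image.1 he'
    exact adm_update σ (hE e (mem_filter.1 he).1) (hx' e he).dvd

lemma sum_weight_le (hM : MertensStmt) :
    ∃ C0 : ℝ, 0 ≤ C0 ∧ ∀ {C Φ : Type} [Fintype C] (σ : Sys C Φ) (z : ℕ → ℝ),
      (∀ s, 0 ≤ z s ∧ z s ≤ 1) → ∀ E : Finset (C → ℕ),
      (∀ e ∈ E, ∀ c, 0 < e c ∧ Smooth (σ.cap c) (e c)) →
      ∑ e ∈ E, wprod z e / total e ≤
        Real.exp (∑ c, ((∑ s ∈ range (σ.cap c + 1), z s) + C0)) := by
  obtain ⟨C0, hC0, he⟩ := euler_levels hM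
  refine ⟨C0, hC0, fun {C Φ} _ σ z hz E hE => ?_⟩
  rw [Real.exp_sum]
  have hsub : E ⊆ Fintype.piFinset (fun c => E.image (fun e => e c)) := fun e he =>
    Fintype.mem_piFinset.2 fun c => mem_image_of_mem _ he
  have hfac : ∀ e : C → ℕ,
      wprod z e / total e = ∏ c, wt (fun p => z (kap p)) (e c) / (e c : ℝ) := by
    intro e; rw [wprod, total, Nat.cast_prod, prod_div_distrib]
  refine le_trans (sum_le_sum_of_subset_of_nonneg hsub ?_) ?_
  · intro e _ _
    exact div_nonneg (wprod_nonneg (fun s => (hz s).1) e) (Nat.cast_nonneg _)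
  simp_rw [hfac]
  rw [← prod_univ_sum (fun c => E.image (fun e => e c))
    (fun _ n => wt (fun p => z (kap p)) n / (n : ℝ))]
  apply prod_le_prod
  · intro c _
    exact sum_nonneg fun n _ => div_nonneg (wt_nonneg _ fun p _ => (hz _).1) (Nat.cast_nonneg _)
  · intro c _
    have := he (σ.cap c) 1 z le_rfl hz (fun s hs => absurd (hz s).2 (not_le.2 hs))
      (E.image (fun e => e c)) (by
        intro n hn
        obtain ⟨e, he', rfl⟩ := mem_image.1 hn
        exact hE e he' c)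
    simpa using this

/-- The main estimate of the system. -/
theorem core_bound (hM : MertensStmt) (hp : SievePairStmt) (ht : SieveTripleStmt) :
    ∃ C0 : ℝ, ∃ ee : ℕ, 1 ≤ C0 ∧ ∀ {C Φ : Type} [Fintype C] [Fintype Φ] (σ : Sys C Φ) (z : ℕ → ℝ),
      (∀ c, (Finset.univ.filter (fun f => c ∈ σ.S f)).card ≤ 2) →
      (∀ s, 0 ≤ z s ∧ z s ≤ 1) →
      ∀ Bf : ℝ, ((Fintype.card C : ℝ) + 1) * C0 * ((σ.k : ℝ) + 4) ^ ee ≤ Bf →
      (∀ (F : Finset Φ) (E : Finset (C → ℕ)), (∀ e ∈ E, Adm σ F e) →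
        ∑ e ∈ E, wprod z e / total e ≤
          Real.exp (∑ c, ((∑ s ∈ range (σ.cap c + 1), z s) + C0)) * ∏ f ∈ F, formFac σ Bf f) ∧
      (∀ (F : Finset Φ) (E : Finset (C → ℕ)) (X : ℝ), 0 ≤ X →
        (∃ f ∈ F, σ.ks f = σ.k) → (∀ e ∈ E, Adm σ F e ∧ (total e : ℝ) ≤ X) →
        ∑ e ∈ E, wprod z e ≤
          X * Real.exp ((σ.D : ℝ) - σ.k) *
            (Real.exp (∑ c, ((∑ s ∈ range (σ.cap c + 1), z s) + C0)) *
              ∏ f ∈ F, formFac σ Bf f)) := by
  obtain ⟨CF, ee, hCF, hforms⟩ := forms_bound hp ht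
  obtain ⟨CE, hCE, hw⟩ := sum_weight_le hM
  refine ⟨CF + CE, ee, by linarith, fun {C Φ} _ _ σ z h2 hz Bf hBf => ?_⟩
  set S : ℝ := CF * ((σ.k : ℝ) + 4) ^ ee with hS
  set Z : ℝ := Real.exp (∑ c, ((∑ s ∈ range (σ.cap c + 1), z s) + (CF + CE))) with hZ
  have hS1 : 1 ≤ S := by
    rw [hS]
    exact one_le_mul_of_one_le_of_one_le hCF
      (one_le_pow₀ (by linarith [Nat.cast_nonneg (α := ℝ) σ.k]))
  have hcC : ((Fintype.card C : ℝ) + 1) * S ≤ Bf := by
    refine le_trans ?_ hBf
    rw [hS, mul_assoc ((Fintype.card C : ℝ) + 1) (CF + CE)]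
    gcongr
    linarith
  have hB1 : 1 ≤ Bf := le_trans (one_le_mul_of_one_le_of_one_le (by
    linarith [Nat.cast_nonneg (α := ℝ) (Fintype.card C)]) hS1) hcC
  have hff : ∀ f, 0 ≤ formFac σ Bf f := fun f => by unfold formFac; positivity
  -- the factor of one extraction
  have hstep : ∀ (F : Finset Φ) (c : C), (formsAt σ F c).Nonempty →
      ∀ s0 : ℕ, (∀ f ∈ formsAt σ F c, σ.ks f ≤ s0 + σ.D) →
      S * Real.exp (-(((formsAt σ F c).card : ℝ) * s0)) ≤
        (1 / ((Fintype.card C : ℝ) + 1)) * ∏ f ∈ formsAt σ F c, formFac σ Bf f := by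
    intro F c hne s0 hs0
    simp only [formFac]
    rw [prod_mul_distrib, prod_const, ← Real.exp_sum]
    calc S * Real.exp (-(((formsAt σ F c).card : ℝ) * s0))
        ≤ (1 / ((Fintype.card C : ℝ) + 1) * Bf ^ (formsAt σ F c).card) *
            Real.exp (∑ f ∈ formsAt σ F c, ((σ.D : ℝ) - σ.ks f)) := by
          refine mul_le_mul ?_ (Real.exp_le_exp.2 ?_) (Real.exp_pos _).le (by positivity)
          · rw [div_mul_eq_mul_div, le_div_iff₀ (by positivity), one_mul, mul_comm]
            exact le_trans hcC (le_self_pow₀ hB1 (card_ne_zero.2 hne))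
          · calc -(((formsAt σ F c).card : ℝ) * s0)
                = ∑ _f ∈ formsAt σ F c, -(s0 : ℝ) := by rw [sum_const, nsmul_eq_mul]; ring
              _ ≤ _ := sum_le_sum fun f hf => by
                  have : (σ.ks f : ℝ) ≤ (s0 : ℝ) + σ.D := by exact_mod_cast hs0 f hf
                  linarith
      _ = _ := by ring
  have split : ∀ (F : Finset Φ) (c : C) (K : ℝ),
      K * (∏ f ∈ formsAt σ F c, formFac σ Bf f) *
        (Z * ∏ f ∈ F \ formsAt σ F c, formFac σ Bf f) =
        K * (Z * ∏ f ∈ F, formFac σ Bf f) := by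
    intro F c K
    rw [← prod_sdiff (filter_subset (fun f => c ∈ σ.S f) F)]
    unfold formsAt
    ring
  have hsumC : ∀ x : ℝ, 0 ≤ x → ∑ _c : C, 1 / ((Fintype.card C : ℝ) + 1) * x ≤ x := by
    intro x hx
    rw [sum_const, nsmul_eq_mul, card_univ, ← mul_assoc, mul_one_div]
    exact mul_le_of_le_one_left hx ((div_le_one (by positivity)).2 (by linarith))
  have hZ' : ∀ E : Finset (C → ℕ), (∀ e ∈ E, ∀ c, 0 < e c ∧ Smooth (σ.cap c) (e c)) →
      ∑ e ∈ E, wprod z e / total e ≤ Z := by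
    intro E hE
    refine le_trans (hw σ z hz E hE) (Real.exp_le_exp.2 (sum_le_sum fun c _ => ?_))
    linarith
  have recip : ∀ (F : Finset Φ) (E : Finset (C → ℕ)), (∀ e ∈ E, Adm σ F e) →
      ∑ e ∈ E, wprod z e / total e ≤ Z * ∏ f ∈ F, formFac σ Bf f := by
    intro F
    induction F using Finset.strongInduction with
    | _ F ih =>
      intro E hE
      rcases F.eq_empty_or_nonempty with rfl | hF
      · simpa using hZ' E (fun e he => (hE e he).1)
      set sF : C → ℕ := fun c => (formsAt σ F c).sup (fun f => σ.ks f - σ.D) with hsF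
      have hnn : 0 ≤ Z * ∏ f ∈ F, formFac σ Bf f :=
        mul_nonneg (Real.exp_pos _).le (prod_nonneg fun f _ => hff f)
      refine le_trans (extract_sum σ hF (fun e => wprod z e / total e)
        (fun e => wprod z e / total e)
        (fun c => 1 / ((Fintype.card C : ℝ) + 1) * ∏ f ∈ formsAt σ F c, formFac σ Bf f)
        (fun c => Z * ∏ f ∈ F \ formsAt σ F c, formFac σ Bf f) E hE
        (fun c _ => mul_nonneg (by positivity) (prod_nonneg fun f _ => hff f)) ?_
        (fun c hne E' hE' => ih _ (sdiff_ssubset (filter_subset _ _) hne) E' hE')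
        (fun c => by rw [split]; exact mul_nonneg (by positivity) hnn)) ?_
      · intro c e' E' hE' hne P hP
        obtain ⟨hcard, hA1, hA2, hA, hPs, hinj⟩ :=
          fibre_forms σ h2 E' (fun e he => hE e (hE' he)) P hP hne
        have hb : ∀ p ∈ E'.image P, p.Prime ∧ sF c ≤ kap p ∧
            ∀ a ∈ (formsAt σ F c).image (fun f => fval σ e' f), (a * p + 1).Prime := by
          intro p hp
          refine ⟨(hPs p hp).1, ?_, (hPs p hp).2⟩
          obtain ⟨e, he, rfl⟩ := mem_image.1 hp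
          exact Finset.sup_le fun f hf => by
            have := (hP e he).1.big f (mem_filter.1 hf).1; omega
        have hbound := (hforms σ.k (sF c) _ hA1 hA2 hA _ hb).1
        rw [hcard, sum_image hinj] at hbound
        have hne' : (formsAt σ F c).Nonempty := by
          obtain ⟨e, he⟩ := hne; exact (hP e he).1.nonempty
        have hs := hstep F c hne' (sF c) (fun f hf => by
          have := le_sup (f := fun f => σ.ks f - σ.D) hf; simp only [hsF] at this ⊢; omega)
        have hg' : 0 ≤ wprod z e' / (total e' : ℝ) :=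
          div_nonneg (wprod_nonneg (fun s => (hz s).1) e') (Nat.cast_nonneg _)
        calc ∑ e ∈ E', wprod z e / (total e : ℝ)
            ≤ ∑ e ∈ E', wprod z e' / (total e' : ℝ) * (1 / (P e : ℝ)) := by
              refine sum_le_sum fun e he => ?_
              obtain ⟨hx, hu⟩ := hP e he
              rw [total_update e c hx.dvd, hu,
                wprod_update z e c hx.prime hx.dvd ((hE e (hE' he)).1 c).1, hu, Nat.cast_mul]
              have hw0 := wprod_nonneg (fun s => (hz s).1) e'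
              calc z (kap (P e)) * wprod z e' / ((P e : ℝ) * (total e' : ℝ))
                  ≤ 1 * wprod z e' / ((P e : ℝ) * (total e' : ℝ)) := by
                    gcongr
                    exact (hz _).2
                _ = _ := by rw [one_mul, div_mul_div_comm, mul_one, mul_comm (P e : ℝ)]
          _ = wprod z e' / (total e' : ℝ) * ∑ e ∈ E', 1 / (P e : ℝ) := by rw [mul_sum]
          _ ≤ _ := by
              rw [mul_comm]
              exact mul_le_mul_of_nonneg_right (le_trans hbound hs) hg'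
      · simp_rw [split]
        exact hsumC _ hnn
  refine ⟨recip, fun F E X hX hk hE => ?_⟩
  obtain ⟨f0, hf0, hk0⟩ := hk
  have hnn : 0 ≤ Z * ∏ f ∈ F, formFac σ Bf f :=
    mul_nonneg (Real.exp_pos _).le (prod_nonneg fun f _ => hff f)
  set s0 : ℕ := σ.k - σ.D with hs0
  have hs0k : ∀ f, σ.ks f ≤ s0 + σ.D := fun f => by have := σ.ks_le f; omega
  refine le_trans (extract_sum σ ⟨f0, hf0⟩ (fun e => wprod z e)
    (fun e => wprod z e / total e)
    (fun c => 1 / ((Fintype.card C : ℝ) + 1) * (X * Real.exp ((σ.D : ℝ) - σ.k)) *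
      ∏ f ∈ formsAt σ F c, formFac σ Bf f)
    (fun c => Z * ∏ f ∈ F \ formsAt σ F c, formFac σ Bf f) E (fun e he => (hE e he).1)
    (fun c _ => mul_nonneg (by positivity) (prod_nonneg fun f _ => hff f)) ?_
    (fun c _ E' hE' => recip _ E' hE')
    (fun c => by rw [split]; exact mul_nonneg (by positivity) hnn)) ?_
  · intro c e' E' hE' hne P hP
    obtain ⟨hcard, hA1, hA2, hA, hPs, hinj⟩ :=
      fibre_forms σ h2 E' (fun e he => (hE e (hE' he)).1) P hP hne
    obtain ⟨e1, he1⟩ := hne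
    have ht0 : (0 : ℝ) < total e' := by
      have h1 : 0 < total e1 := prod_pos fun d _ => ((hE e1 (hE' he1)).1.1 d).1
      rw [total_update e1 c (hP e1 he1).1.dvd, (hP e1 he1).2] at h1
      exact_mod_cast Nat.pos_of_mul_pos_left h1
    have hb : ∀ p ∈ E'.image P, p.Prime ∧ s0 ≤ kap p ∧
        ∀ a ∈ (formsAt σ F c).image (fun f => fval σ e' f), (a * p + 1).Prime := by
      intro p hp
      refine ⟨(hPs p hp).1, ?_, (hPs p hp).2⟩
      obtain ⟨e, he, rfl⟩ := mem_image.1 hp
      have := (hP e he).1.big f0 hf0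
      omega
    have hY : ∀ p ∈ E'.image P, (p : ℝ) ≤ X / total e' := by
      intro p hp
      obtain ⟨e, he, rfl⟩ := mem_image.1 hp
      have h1 := (hE e (hE' he)).2
      rw [total_update e c (hP e he).1.dvd, (hP e he).2, Nat.cast_mul] at h1
      rwa [le_div_iff₀ ht0]
    have hbound := (hforms σ.k s0 _ hA1 hA2 hA _ hb).2 (X / total e') hY (by positivity)
    rw [hcard, card_image_of_injOn hinj] at hbound
    have hs := hstep F c (hP e1 he1).1.nonempty s0 (fun f _ => hs0k f)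
    have hw0 := wprod_nonneg (fun s => (hz s).1) e'
    have hexp : Real.exp (-((((formsAt σ F c).card : ℝ) + 1) * s0)) ≤
        Real.exp ((σ.D : ℝ) - σ.k) * Real.exp (-(((formsAt σ F c).card : ℝ) * s0)) := by
      rw [← Real.exp_add]
      apply Real.exp_le_exp.2
      have : (σ.k : ℝ) ≤ (s0 : ℝ) + σ.D := by exact_mod_cast (show σ.k ≤ s0 + σ.D by omega)
      linarith
    calc ∑ e ∈ E', wprod z e ≤ ∑ _e ∈ E', wprod z e' := by
          refine sum_le_sum fun e he => ?_
          obtain ⟨hx, hu⟩ := hP e he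
          rw [wprod_update z e c hx.prime hx.dvd ((hE e (hE' he)).1.1 c).1, hu]
          exact mul_le_of_le_one_left hw0 (hz _).2
      _ = (E'.card : ℝ) * wprod z e' := by rw [sum_const, nsmul_eq_mul]
      _ ≤ (S * (X / total e') * (Real.exp ((σ.D : ℝ) - σ.k) *
            Real.exp (-(((formsAt σ F c).card : ℝ) * s0)))) * wprod z e' := by
          refine mul_le_mul_of_nonneg_right (le_trans hbound ?_) hw0
          exact mul_le_mul_of_nonneg_left hexp (by positivity)
      _ = (X * Real.exp ((σ.D : ℝ) - σ.k)) * (S * Real.exp (-(((formsAt σ F c).card : ℝ) * s0))) *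
            (wprod z e' / total e') := by ring
      _ ≤ (X * Real.exp ((σ.D : ℝ) - σ.k)) *
            (1 / ((Fintype.card C : ℝ) + 1) * ∏ f ∈ formsAt σ F c, formFac σ Bf f) *
            (wprod z e' / total e') := by gcongr
      _ = _ := by ring
  · simp_rw [split]
    refine le_trans (le_of_eq (sum_congr rfl fun c _ => ?_))
      (hsumC (X * Real.exp ((σ.D : ℝ) - σ.k) * (Z * ∏ f ∈ F, formFac σ Bf f)) (by positivity))
    ring

end Vale.Agent.P031
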