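import Vale.Agent.P031.Euler

/-!
# Primes `P` with one or two `a P + 1` prime: bounds in terms of levels
-/

open Finset
open scoped Classical

namespace Vale.Agent.P031

lemma kap_mono {r q : ℕ} (hr : 2 ≤ r) (h : r ≤ q) : kap r ≤ kap q := by
  unfold kap
  apply Nat.floor_le_floor
  have h1 : (2 : ℝ) ≤ r := by exact_mod_cast hr
  have h2 : (r : ℝ) ≤ q := by exact_mod_cast h
  exact Real.log_le_log (Real.log_pos (by linarith)) (Real.log_le_log (by linarith) h2)

lemma le_exp_exp_of_prime {q k : ℕ} (hq : q.Prime) (h : kap q ≤ k) :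
    (q : ℝ) ≤ Real.exp (Real.exp ((k : ℝ) + 1)) := by
  have hm : q ∈ cell (kap q) := mem_cell.2 ⟨hq, rfl⟩
  unfold cell at hm
  have h1 := Nat.lt_succ_iff.1 (mem_range.1 (mem_filter.1 hm).1)
  refine le_trans (le_trans (by exact_mod_cast h1) (Nat.floor_le (Real.exp_pos _).le)) ?_
  have : (kap q : ℝ) ≤ k := by exact_mod_cast h
  exact Real.exp_le_exp.2 (Real.exp_le_exp.2 (by push_cast; linarith))

lemma sum_inv_sq_tail (m : ℕ) (hm : 1 ≤ m) (S : Finset ℕ) (hS : ∀ i ∈ S, m ≤ i + 1) :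
    ∑ i ∈ S, 1 / ((i : ℝ) + 1) ^ 2 ≤ 2 / (m : ℝ) := by
  obtain ⟨N, hN⟩ : ∃ N, ∀ i ∈ S, i + 1 < m + N :=
    ⟨S.sup id + 2, fun i hi => by have := S.le_sup (f := id) hi; simp at this; omega⟩
  have hsub : S ⊆ (range N).image (fun j => m + j - 1) := by
    intro i hi
    have := hS i hi; have := hN i hi
    exact mem_image.2 ⟨i + 1 - m, mem_range.2 (by omega), by omega⟩
  refine le_trans (sum_le_sum_of_subset_of_nonneg hsub (fun i _ _ => by positivity)) ?_
  rw [sum_image (fun a _ b _ h => by change m + a - 1 = m + b - 1 at h; omega)]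
  have key : ∀ n : ℕ, ∑ j ∈ range n, 1 / (((m + j - 1 : ℕ) : ℝ) + 1) ^ 2 ≤
      2 / (m : ℝ) - 2 / ((m : ℝ) + n) := by
    intro n
    induction n with
    | zero => simp
    | succ n ih =>
      rw [sum_range_succ]
      have hx : (((m + n - 1 : ℕ) : ℝ) + 1) = (m : ℝ) + n := by
        rw [Nat.cast_sub (by omega)]; push_cast; ring
      rw [hx]
      have hm' : (1 : ℝ) ≤ m := by exact_mod_cast hm
      have hy : (1 : ℝ) ≤ (m : ℝ) + n := by linarith [Nat.cast_nonneg (α := ℝ) n]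
      push_cast
      have _hh : 1 / ((m : ℝ) + n) ^ 2 ≤ 2 / ((m : ℝ) + n) - 2 / ((m : ℝ) + (n + 1)) := by
        rw [div_sub_div _ _ (by linarith) (by linarith), div_le_div_iff₀ (by positivity) (by positivity)]
        nlinarith
      linarith
  refine le_trans (key N) ?_
  have : 0 ≤ 2 / ((m : ℝ) + N) := by positivity
  linarith

/-- Counting and reciprocal sums for the forms. -/
theorem forms_bound (h2 : SievePairStmt) (h3 : SieveTripleStmt) :
    ∃ C : ℝ, ∃ e : ℕ, 1 ≤ C ∧ ∀ (k s0 : ℕ) (A : Finset ℕ), 1 ≤ A.card → A.card ≤ 2 →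
      (∀ a ∈ A, 0 < a ∧ (a : ℝ) ≤ Real.exp (Real.exp ((k : ℝ) + 1))) →
      ∀ Ps : Finset ℕ,
        (∀ P ∈ Ps, P.Prime ∧ s0 ≤ kap P ∧ ∀ a ∈ A, (a * P + 1).Prime) →
        (∑ P ∈ Ps, (1 : ℝ) / P ≤
            C * ((k : ℝ) + 4) ^ e * Real.exp (-((A.card : ℝ) * s0))) ∧
        ∀ Y : ℝ, (∀ P ∈ Ps, (P : ℝ) ≤ Y) → 0 ≤ Y →
          (Ps.card : ℝ) ≤
            C * ((k : ℝ) + 4) ^ e * Y * Real.exp (-(((A.card : ℝ) + 1) * s0)) := by
  obtain ⟨C2, e2, hp⟩ := h2
  obtain ⟨C3, e3, ht⟩ := h3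
  have hl2 : (1 : ℝ) / 2 ≤ Real.log 2 := by linarith [Real.log_two_gt_d9]
  set C0 : ℝ := |C2| + |C3| + 1 with hC0
  have hC0pos : 1 ≤ C0 := by rw [hC0]; linarith [abs_nonneg C2, abs_nonneg C3]
  refine ⟨128 * C0, e2 + e3, by linarith, fun k s0 A hA1 hA2 hA Ps hPs => ?_⟩
  set S : ℝ := ((k : ℝ) + 4) ^ (e2 + e3) with hSdef
  have hk4 : (1 : ℝ) ≤ (k : ℝ) + 4 := by linarith [Nat.cast_nonneg (α := ℝ) k]
  have hll : ∀ x : ℝ, 0 ≤ x → x ≤ 2 * Real.exp (Real.exp ((k : ℝ) + 1)) →
      0 ≤ Real.log (Real.log (x + 16)) ∧ Real.log (Real.log (x + 16)) ≤ (k : ℝ) + 4 := by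
    intro x hx0 hx
    have h16 : (1 : ℝ) ≤ Real.log (x + 16) := by
      rw [Real.le_log_iff_exp_le (by linarith)]
      linarith [Real.exp_one_lt_d9]
    refine ⟨Real.log_nonneg h16, ?_⟩
    rw [Real.log_le_iff_le_exp (by linarith), Real.log_le_iff_le_exp (by linarith)]
    have e1 : Real.exp ((k : ℝ) + 4) = Real.exp 3 * Real.exp ((k : ℝ) + 1) := by
      rw [← Real.exp_add]; ring_nf
    have e2 : (4 : ℝ) ≤ Real.exp 3 := by linarith [Real.add_one_le_exp 3]
    have e3 : (2 : ℝ) ≤ Real.exp ((k : ℝ) + 1) := by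
      linarith [Real.add_one_le_exp ((k : ℝ) + 1), Nat.cast_nonneg (α := ℝ) k]
    have e4 : Real.exp (Real.exp ((k : ℝ) + 1)) * 32 ≤ Real.exp (Real.exp ((k : ℝ) + 4)) := by
      have h32 : (32 : ℝ) ≤ Real.exp (3 * Real.exp ((k : ℝ) + 1)) := by
        have := Real.quadratic_le_exp_of_nonneg (show (0:ℝ) ≤ 3 * Real.exp ((k : ℝ) + 1) by positivity)
        have h6 : (2.7 : ℝ) ≤ Real.exp 1 := by linarith [Real.exp_one_gt_d9]
        have h7 : Real.exp 1 ≤ Real.exp ((k : ℝ) + 1) := by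
          apply Real.exp_le_exp.2; linarith [Nat.cast_nonneg (α := ℝ) k]
        nlinarith
      refine le_trans (mul_le_mul_of_nonneg_left h32 (Real.exp_pos _).le) ?_
      rw [← Real.exp_add]
      apply Real.exp_le_exp.2
      rw [e1]; nlinarith [Real.exp_pos ((k : ℝ) + 1)]
    have e5 : (1 : ℝ) ≤ Real.exp (Real.exp ((k : ℝ) + 1)) := Real.one_le_exp (Real.exp_pos _).le
    linarith
  -- count up to `Y`
  have count : ∀ Y : ℝ, 2 ≤ Y → ∀ Q : Finset ℕ, Q ⊆ Ps → (∀ P ∈ Q, (P : ℝ) ≤ Y) →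
      (Q.card : ℝ) ≤ C0 * S * (Y / Real.log Y ^ (A.card + 1)) := by
    intro Y hY Q hQ hQY
    have hlY : 0 < Real.log Y := Real.log_pos (by linarith)
    have hmem : ∀ P ∈ Q, P ∈ Finset.Icc 1 ⌊Y⌋₊ := fun P hP =>
      Finset.mem_Icc.2 ⟨(hPs P (hQ hP)).1.one_le, Nat.le_floor (hQY P hP)⟩
    rcases (show A.card = 1 ∨ A.card = 2 by omega) with h | h
    · obtain ⟨a, ha⟩ := Finset.card_eq_one.1 h
      have haA : a ∈ A := by simp [ha]
      obtain ⟨ha0, hae⟩ := hA a haA
      have hb := hp Y hY a ha0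
      refine le_trans (le_trans (Nat.cast_le.2 (Finset.card_le_card (fun P hP => ?_))) hb) ?_
      · exact mem_filter.2 ⟨hmem P hP, (hPs P (hQ hP)).1, (hPs P (hQ hP)).2.2 a haA⟩
      obtain ⟨hl0, hl⟩ := hll (a : ℝ) (Nat.cast_nonneg a) (by linarith [Real.exp_pos (Real.exp ((k:ℝ) + 1))])
      rw [h]
      have hs : Real.log (Real.log ((a : ℝ) + 16)) ^ e2 ≤ S :=
        le_trans (pow_le_pow_left₀ hl0 hl e2) (pow_le_pow_right₀ hk4 (Nat.le_add_right _ _))
      calc C2 * Y / Real.log Y ^ 2 * Real.log (Real.log ((a : ℝ) + 16)) ^ e2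
          = C2 * Real.log (Real.log ((a : ℝ) + 16)) ^ e2 * (Y / Real.log Y ^ 2) := by ring
        _ ≤ C0 * S * (Y / Real.log Y ^ 2) := by
          apply mul_le_mul_of_nonneg_right _ (by positivity)
          calc _ ≤ |C2| * Real.log (Real.log ((a : ℝ) + 16)) ^ e2 :=
                mul_le_mul_of_nonneg_right (le_abs_self _) (by positivity)
            _ ≤ C0 * S := mul_le_mul (by rw [hC0]; linarith [abs_nonneg C3]) hs (by positivity)
                (by positivity)
    · obtain ⟨a, b, hab, hAab⟩ := Finset.card_eq_two.1 h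
      have haA : a ∈ A := by simp [hAab]
      have hbA : b ∈ A := by simp [hAab]
      obtain ⟨ha0, hae⟩ := hA a haA
      obtain ⟨hb0, hbe⟩ := hA b hbA
      have hb := ht Y hY a b ha0 hb0 hab
      refine le_trans (le_trans (Nat.cast_le.2 (Finset.card_le_card (fun P hP => ?_))) hb) ?_
      · exact mem_filter.2 ⟨hmem P hP, (hPs P (hQ hP)).1, (hPs P (hQ hP)).2.2 a haA,
          (hPs P (hQ hP)).2.2 b hbA⟩
      obtain ⟨hl0, hl⟩ := hll ((a : ℝ) + b) (by positivity) (by linarith)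
      rw [h]
      have hs : Real.log (Real.log ((a : ℝ) + b + 16)) ^ e3 ≤ S :=
        le_trans (pow_le_pow_left₀ hl0 hl e3) (pow_le_pow_right₀ hk4 (Nat.le_add_left _ _))
      calc C3 * Y / Real.log Y ^ 3 * Real.log (Real.log ((a : ℝ) + b + 16)) ^ e3
          = C3 * Real.log (Real.log ((a : ℝ) + b + 16)) ^ e3 * (Y / Real.log Y ^ 3) := by ring
        _ ≤ C0 * S * (Y / Real.log Y ^ 3) := by
          apply mul_le_mul_of_nonneg_right _ (by positivity)
          calc _ ≤ |C3| * Real.log (Real.log ((a : ℝ) + b + 16)) ^ e3 :=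
                mul_le_mul_of_nonneg_right (le_abs_self _) (by positivity)
            _ ≤ C0 * S := mul_le_mul (by rw [hC0]; linarith [abs_nonneg C2]) hs (by positivity)
                (by positivity)
  have hlow : ∀ P ∈ Ps, Real.exp (s0 : ℝ) / 2 ≤ Real.log (P : ℝ) := by
    intro P hP
    obtain ⟨hPp, hs, -⟩ := hPs P hP
    rcases Nat.eq_zero_or_pos s0 with h0 | h0
    · subst h0
      have h2 : Real.log 2 ≤ Real.log (P : ℝ) :=
        Real.log_le_log (by norm_num) (by exact_mod_cast hPp.two_le)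
      simp only [Nat.cast_zero, Real.exp_zero]
      linarith
    · have := Real.log_le_log (Real.exp_pos _) (exp_exp_le h0 hs)
      rw [Real.log_exp] at this
      linarith [Real.exp_pos (s0 : ℝ)]
  have hS0 : 0 ≤ S := by positivity
  constructor
  · -- dyadic blocks
    set I := Ps.image (Nat.log 2) with hI
    have hmap : ∀ P ∈ Ps, Nat.log 2 P ∈ I := fun P hP => mem_image_of_mem _ hP
    rw [← sum_fiberwise_of_maps_to hmap]
    set m : ℕ := max 1 ⌈Real.exp (s0 : ℝ) / 2⌉₊ with hm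
    have hblock : ∀ i ∈ I, ∑ P ∈ Ps.filter (fun P => Nat.log 2 P = i), (1 : ℝ) / P ≤
        C0 * S * 16 * ((1 : ℝ) / ((i : ℝ) + 1) ^ 2 * (1 / (m : ℝ)) ^ (A.card - 1)) ∧ m ≤ i + 1 := by
      intro i hi
      have hbnd : ∀ P ∈ Ps.filter (fun P => Nat.log 2 P = i),
          2 ^ i ≤ P ∧ P < 2 ^ (i + 1) := by
        intro P hP
        obtain ⟨hP', hlog⟩ := mem_filter.1 hP
        rw [← hlog]
        exact ⟨Nat.pow_log_le_self 2 (hPs P hP').1.ne_zero, Nat.lt_pow_succ_log_self (by norm_num) P⟩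
      have hmi : m ≤ i + 1 := by
        obtain ⟨P, hP, hPi⟩ := mem_image.1 hi
        have h2 := (hbnd P (mem_filter.2 ⟨hP, hPi⟩)).2
        have h3 : Real.log (P : ℝ) ≤ Real.log ((2 : ℝ) ^ (i + 1)) := by
          apply Real.log_le_log (by exact_mod_cast (hPs P hP).1.pos)
          exact_mod_cast h2.le
        rw [Real.log_pow] at h3
        push_cast at h3
        have h4 : Real.exp (s0 : ℝ) / 2 ≤ ((i + 1 : ℕ) : ℝ) := by
          push_cast
          nlinarith [hlow P hP, Real.log_two_lt_d9, Nat.cast_nonneg (α := ℝ) i]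
        exact max_le (by omega) (Nat.ceil_le.2 h4)
      refine ⟨?_, hmi⟩
      have hc := count ((2 : ℝ) ^ (i + 1)) (by
          calc (2 : ℝ) = 2 ^ 1 := (pow_one _).symm
            _ ≤ _ := pow_le_pow_right₀ (by norm_num) (by omega)) _ (filter_subset _ _)
        (fun P hP => by exact_mod_cast (hbnd P hP).2.le)
      calc ∑ P ∈ Ps.filter (fun P => Nat.log 2 P = i), (1 : ℝ) / P
          ≤ ∑ _P ∈ Ps.filter (fun P => Nat.log 2 P = i), (1 : ℝ) / 2 ^ i := by
            refine sum_le_sum fun P hP => ?_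
            apply div_le_div_of_nonneg_left zero_le_one (by positivity)
            exact_mod_cast (hbnd P hP).1
        _ ≤ C0 * S * ((2 : ℝ) ^ (i + 1) / Real.log ((2 : ℝ) ^ (i + 1)) ^ (A.card + 1)) *
              (1 / 2 ^ i) := by
            rw [sum_const, nsmul_eq_mul]
            exact mul_le_mul_of_nonneg_right hc (by positivity)
        _ ≤ _ := by
            rw [Real.log_pow, mul_assoc, mul_assoc]
            push_cast
            rw [mul_assoc C0 S 16, mul_assoc C0 (S * 16), mul_assoc S 16]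
            apply mul_le_mul_of_nonneg_left _ (by linarith)
            apply mul_le_mul_of_nonneg_left _ hS0
            have hi1 : (1 : ℝ) ≤ (i : ℝ) + 1 := by linarith [Nat.cast_nonneg (α := ℝ) i]
            have hi2 : ((i : ℝ) + 1) / 2 ≤ ((i : ℝ) + 1) * Real.log 2 := by nlinarith
            have hmR : (1 : ℝ) ≤ m := by exact_mod_cast le_max_left _ _
            have hmi' : (m : ℝ) ≤ (i : ℝ) + 1 := by exact_mod_cast hmi
            rcases (show A.card = 1 ∨ A.card = 2 by omega) with h | h <;> rw [h] <;>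
              norm_num
            · calc (2 : ℝ) ^ (i + 1) / (((i : ℝ) + 1) * Real.log 2) ^ 2 * (2 ^ i)⁻¹
                  = 2 / (((i : ℝ) + 1) * Real.log 2) ^ 2 := by rw [pow_succ]; field_simp
                _ ≤ 2 / (((i : ℝ) + 1) / 2) ^ 2 :=
                  div_le_div_of_nonneg_left (by norm_num) (by positivity)
                    (pow_le_pow_left₀ (by positivity) hi2 2)
                _ = 8 / ((i : ℝ) + 1) ^ 2 := by field_simp; ring
                _ ≤ 16 / ((i : ℝ) + 1) ^ 2 := by gcongr; norm_num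
                _ = _ := by ring
            · calc (2 : ℝ) ^ (i + 1) / (((i : ℝ) + 1) * Real.log 2) ^ 3 * (2 ^ i)⁻¹
                  = 2 / (((i : ℝ) + 1) * Real.log 2) ^ 3 := by rw [pow_succ]; field_simp
                _ ≤ 2 / (((i : ℝ) + 1) / 2) ^ 3 :=
                  div_le_div_of_nonneg_left (by norm_num) (by positivity)
                    (pow_le_pow_left₀ (by positivity) hi2 3)
                _ = 16 / (((i : ℝ) + 1) ^ 2 * ((i : ℝ) + 1)) := by field_simp; ring
                _ ≤ 16 / (((i : ℝ) + 1) ^ 2 * (m : ℝ)) :=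
                  div_le_div_of_nonneg_left (by norm_num) (by positivity)
                    (mul_le_mul_of_nonneg_left hmi' (by positivity))
                _ = _ := by field_simp
    refine le_trans (sum_le_sum fun i hi => (hblock i hi).1) ?_
    rw [← mul_sum, ← sum_mul]
    have ht := sum_inv_sq_tail m (le_max_left _ _) I (fun i hi => (hblock i hi).2)
    have hm1 : 1 / (m : ℝ) ≤ 2 / Real.exp (s0 : ℝ) := by
      have hmR : (1 : ℝ) ≤ m := by exact_mod_cast le_max_left _ _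
      have h1 : Real.exp (s0 : ℝ) / 2 ≤ (m : ℝ) :=
        le_trans (Nat.le_ceil _) (by exact_mod_cast le_max_right _ _)
      rw [div_le_div_iff₀ (by linarith) (Real.exp_pos _)]
      linarith
    calc C0 * S * 16 * ((∑ i ∈ I, 1 / ((i : ℝ) + 1) ^ 2) * (1 / (m : ℝ)) ^ (A.card - 1))
        ≤ C0 * S * 16 * (2 / (m : ℝ) * (1 / (m : ℝ)) ^ (A.card - 1)) := by gcongr
      _ = C0 * S * 32 * (1 / (m : ℝ)) ^ A.card := by
          rcases (show A.card = 1 ∨ A.card = 2 by omega) with h | h <;> rw [h] <;> ring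
      _ ≤ C0 * S * 32 * (2 / Real.exp (s0 : ℝ)) ^ A.card := by gcongr
      _ ≤ _ := by
          rw [div_pow, Real.exp_neg, Real.exp_nat_mul, div_eq_mul_inv _ (Real.exp (s0 : ℝ) ^ A.card)]
          have h4 : (2 : ℝ) ^ A.card ≤ 4 := by
            rcases (show A.card = 1 ∨ A.card = 2 by omega) with h | h <;> rw [h] <;> norm_num
          have h5 : (0 : ℝ) ≤ C0 * S * (Real.exp (s0 : ℝ) ^ A.card)⁻¹ := by positivity
          nlinarith [mul_le_mul_of_nonneg_left h4 h5]
  · intro Y hY hY0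
    rcases Ps.eq_empty_or_nonempty with rfl | ⟨P0, hP0⟩
    · simp; positivity
    have hY2 : 2 ≤ Y := le_trans (by exact_mod_cast (hPs P0 hP0).1.two_le) (hY P0 hP0)
    refine le_trans (count Y hY2 Ps Subset.rfl hY) ?_
    have hlog : Real.exp (s0 : ℝ) / 2 ≤ Real.log Y :=
      le_trans (hlow P0 hP0) (Real.log_le_log (by exact_mod_cast (hPs P0 hP0).1.pos) (hY P0 hP0))
    calc C0 * S * (Y / Real.log Y ^ (A.card + 1))
        ≤ C0 * S * (Y / (Real.exp (s0 : ℝ) / 2) ^ (A.card + 1)) := by gcongr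
      _ ≤ _ := by
          rw [show ((A.card : ℝ) + 1) * (s0 : ℝ) = ((A.card + 1 : ℕ) : ℝ) * s0 by push_cast; ring,
            Real.exp_neg, Real.exp_nat_mul, div_pow]
          have h4 : (2 : ℝ) ^ (A.card + 1) ≤ 8 := by
            rcases (show A.card = 1 ∨ A.card = 2 by omega) with h | h <;> rw [h] <;> norm_num
          have h5 : (0 : ℝ) ≤ C0 * S * Y * (Real.exp (s0 : ℝ) ^ (A.card + 1))⁻¹ := by positivity
          rw [div_div_eq_mul_div, div_eq_mul_inv]
          nlinarith [mul_le_mul_of_nonneg_left h4 h5]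

end Vale.Agent.P031
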