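import Vale.Agent.P031.Coll.Forms

/-!
# The weight attached to a profile

If `v = ∏ (q - 1) * t` has squarefree rough part and all `q` are normal, the weight
`∏ 1 / max 1 λ'` over the rough prime factors of `v` is bounded below by the profile `λ` of the `q`.
-/

open Finset
open scoped Classical

namespace Vale.Agent.P031

/-- Summation by parts for a nonincreasing weight. -/
lemma abel_antitone (T : ℕ) (u w : ℕ → ℝ) (E : ℝ) (hE : 0 ≤ E) (k : ℕ) (hk : T < k) :
    ∀ g : ℕ → ℝ, (∀ s t, T < s → s ≤ t → t ≤ k → g t ≤ g s) → 0 ≤ g k →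
    (∀ b, T < b → b ≤ k → ∑ s ∈ Ioc T b, u s ≤ (∑ s ∈ Ioc T b, w s) + E) →
    ∑ s ∈ Ioc T k, g s * u s ≤ (∑ s ∈ Ioc T k, g s * w s) + g (T + 1) * E := by
  induction k, hk using Nat.le_induction with
  | base =>
    intro g _ hg0 h
    have h1 := h (T + 1) (by omega) le_rfl
    simp only [Nat.succ_eq_add_one, Nat.Ioc_succ_singleton, sum_singleton] at h1 hg0 ⊢
    nlinarith [mul_le_mul_of_nonneg_left h1 hg0]
  | succ k hk ih =>
    intro g hanti hg0 h
    have ihg := ih (fun s => g s - g (k + 1))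
      (fun s t h1 h2 h3 => by have := hanti s t h1 h2 (by omega); linarith)
      (by have := hanti k (k + 1) (by omega) (by omega) le_rfl; linarith)
      (fun b h1 h2 => h b h1 (by omega))
    have hsplit : ∀ f : ℕ → ℝ, ∑ s ∈ Ioc T (k + 1), f s = (∑ s ∈ Ioc T k, f s) + f (k + 1) := by
      intro f
      rw [sum_Ioc_succ_top (by omega : T ≤ k)]
    have htop := mul_le_mul_of_nonneg_left (h (k + 1) (by omega) le_rfl) hg0
    rw [hsplit, hsplit] at htop ⊢
    simp only [sub_mul, sum_sub_distrib, ← mul_sum] at ihg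
    nlinarith

lemma one_le_kap_of_mem {T q : ℕ} (h : T < kap q) : 1 ≤ kap q := by omega

lemma three_le_of_kap {T q : ℕ} (h : T < kap q) : 3 ≤ q := by
  have h1 := exp_exp_le (one_le_kap_of_mem h) le_rfl
  have h2 := Real.add_one_le_exp (Real.exp (kap q : ℝ))
  have h3 := Real.add_one_le_exp (kap q : ℝ)
  have h4 : (1 : ℝ) ≤ kap q := by exact_mod_cast one_le_kap_of_mem h
  exact_mod_cast (show (3 : ℝ) ≤ q by linarith)

lemma omI_mul_le (T b : ℕ) (A : Finset ℕ) {t : ℕ} (ht : Smooth T t) (ht0 : 0 < t)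
    (hA : ∀ q ∈ A, T < kap q) :
    omI T b (shiftProd A * t) ≤ ∑ q ∈ A, omI T b (q - 1) := by
  unfold omI
  refine le_trans (card_le_card (t := A.biUnion fun q =>
    (q - 1).primeFactors.filter (fun r => T < kap r ∧ kap r ≤ b)) ?_) card_biUnion_le
  intro r hr
  obtain ⟨hr, hT, hb⟩ := mem_filter.1 hr
  obtain ⟨hrp, hrd, -⟩ := Nat.mem_primeFactors.1 hr
  rcases hrp.dvd_mul.1 hrd with h | h
  · obtain ⟨q, hq, hqd⟩ := (Prime.dvd_finsetProd_iff (Nat.prime_iff.1 hrp) _).1 h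
    refine mem_biUnion.2 ⟨q, hq, mem_filter.2 ⟨Nat.mem_primeFactors.2 ⟨hrp, hqd, ?_⟩, hT, hb⟩⟩
    have := three_le_of_kap (hA q hq)
    omega
  · have := ht r (Nat.mem_primeFactors.2 ⟨hrp, h, ht0.ne'⟩)
    omega

lemma omI_normal_le {T b q k : ℕ} (hq : Normal q) (hT : T < kap q) (hk : kap q ≤ k) (hb : T < b) :
    (omI T b (q - 1) : ℝ) ≤ ((min b (kap q) - T : ℕ) : ℝ) + (k : ℝ) ^ ((4 : ℝ) / 5) := by
  have hb' : T < min b (kap q) := lt_min hb hT
  have h := (abs_le.1 (hq.2.2 T (min b (kap q)) hb' (min_le_right _ _))).2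
  have h2 : omI T b (q - 1) ≤ omI T (min b (kap q)) (q - 1) := by
    unfold omI
    refine card_le_card fun r hr => ?_
    obtain ⟨hr, h1, h2⟩ := mem_filter.1 hr
    obtain ⟨hrp, hrd, hne⟩ := Nat.mem_primeFactors.1 hr
    refine mem_filter.2 ⟨Nat.mem_primeFactors.2 ⟨hrp, hrd, hne⟩, h1, le_min h2 ?_⟩
    exact kap_mono hrp.two_le (le_trans (Nat.le_of_dvd (Nat.pos_of_ne_zero hne) hrd) (Nat.sub_le _ _))
  have h3 : (kap q : ℝ) ^ ((4 : ℝ) / 5) ≤ (k : ℝ) ^ ((4 : ℝ) / 5) :=
    Real.rpow_le_rpow (Nat.cast_nonneg _) (by exact_mod_cast hk) (by norm_num)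
  have h4 : (omI T b (q - 1) : ℝ) ≤ omI T (min b (kap q)) (q - 1) := by exact_mod_cast h2
  rw [Nat.cast_sub hb'.le]
  linarith

lemma sum_lamS (T b : ℕ) (A : Finset ℕ) :
    ∑ s ∈ Ioc T b, lamS A s = ∑ q ∈ A, (min b (kap q) - T) := by
  simp only [lamS, card_filter]
  rw [sum_comm]
  refine sum_congr rfl fun q _ => ?_
  rw [← card_filter]
  have : (Ioc T b).filter (fun s => s ≤ kap q) = Ioc T (min b (kap q)) := by
    ext s; simp only [mem_filter, mem_Ioc, le_min_iff]; tauto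
  rw [this, Nat.card_Ioc]

/-- The weight of a level. -/
noncomputable def zw (T k : ℕ) (B : Finset ℕ) (s : ℕ) : ℝ :=
  if T < s ∧ s ≤ k then 1 / max 1 (lamS B s : ℝ) else 1

/-- Its negated logarithm on the range. -/
noncomputable def gw (B : Finset ℕ) (s : ℕ) : ℝ := Real.log (max 1 (lamS B s : ℝ))

lemma zw_bounds (T k : ℕ) (B : Finset ℕ) (s : ℕ) : 0 ≤ zw T k B s ∧ zw T k B s ≤ 1 := by
  unfold zw
  have h1 : (1 : ℝ) ≤ max 1 (lamS B s : ℝ) := le_max_left _ _
  split_ifs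
  · exact ⟨by positivity, (div_le_one (by linarith)).2 h1⟩
  · exact ⟨zero_le_one, le_rfl⟩

lemma gw_nonneg (B : Finset ℕ) (s : ℕ) : 0 ≤ gw B s := Real.log_nonneg (le_max_left _ _)

lemma gw_anti (B : Finset ℕ) {s t : ℕ} (h : s ≤ t) : gw B t ≤ gw B s := by
  unfold gw
  apply Real.log_le_log (by positivity)
  gcongr
  exact card_le_card fun q hq => by
    obtain ⟨h1, h2⟩ := mem_filter.1 hq
    exact mem_filter.2 ⟨h1, le_trans h h2⟩

lemma gw_le (B : Finset ℕ) (s : ℕ) : gw B s ≤ Real.log ((B.card : ℝ) + 1) := by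
  apply Real.log_le_log (by positivity)
  have : (lamS B s : ℝ) ≤ B.card := by exact_mod_cast card_filter_le _ _
  exact max_le (by linarith [Nat.cast_nonneg (α := ℝ) B.card]) (by linarith)

/-- The weight of the value is at least the profile bound. -/
theorem weight_lower (T K k : ℕ) (hTk : T < k) (A B : Finset ℕ) (hA : A.card ≤ K)
    (hAn : ∀ q ∈ A, Normal q ∧ T < kap q ∧ kap q ≤ k) (t : ℕ) (ht : Smooth T t) (ht0 : 0 < t)
    (hv : RoughSqfree T (shiftProd A * t)) :
    Real.exp (-((∑ s ∈ Ioc T k, gw B s * (lamS A s : ℝ)) +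
        Real.log ((B.card : ℝ) + 1) * ((K : ℝ) * (k : ℝ) ^ ((4 : ℝ) / 5)))) ≤
      wt (fun p => zw T k B (kap p)) (shiftProd A * t) := by
  set v := shiftProd A * t with hvdef
  have hv0 : v ≠ 0 := by
    refine mul_ne_zero (prod_ne_zero_iff.2 fun q hq => ?_) ht0.ne'
    have := three_le_of_kap (hAn q hq).2.1
    omega
  have hwt : wt (fun p => zw T k B (kap p)) v =
      Real.exp (-(∑ p ∈ v.primeFactors.filter (fun p => T < kap p ∧ kap p ≤ k), gw B (kap p))) := by
    unfold wt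
    rw [prod_list_map_count, Nat.toFinset_factors, ← sum_neg_distrib, Real.exp_sum,
      prod_filter]
    refine prod_congr rfl fun p hp => ?_
    split_ifs with h
    · have hp' := Nat.mem_primeFactors.1 hp
      have h1 : v.factorization p = 1 := by
        have h0 : 0 < v.factorization p := hp'.1.factorization_pos_of_dvd hv0 hp'.2.1
        by_contra hne
        have : p ^ 2 ∣ v := (hp'.1.pow_dvd_iff_le_factorization hv0).2 (by omega)
        exact hv p hp'.1 h.1 (by rwa [← sq])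
      rw [Nat.primeFactorsList_count_eq, h1, pow_one, gw, Real.exp_neg,
        Real.exp_log (by positivity), zw, if_pos h, one_div]
    · rw [zw, if_neg h, one_pow]
  rw [hwt]
  apply Real.exp_le_exp.2
  rw [neg_le_neg_iff]
  set u : ℕ → ℝ := fun s =>
    ((v.primeFactors.filter (fun p => T < kap p ∧ kap p ≤ k)).filter (fun p => kap p = s)).card
    with hu
  have hsum : ∑ p ∈ v.primeFactors.filter (fun p => T < kap p ∧ kap p ≤ k), gw B (kap p) =
      ∑ s ∈ Ioc T k, gw B s * u s := by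
    rw [← sum_fiberwise_of_maps_to (g := kap) (t := Ioc T k)
      (fun p hp => mem_Ioc.2 (mem_filter.1 hp).2)]
    refine sum_congr rfl fun s _ => ?_
    rw [sum_congr rfl (fun p hp => by rw [(mem_filter.1 hp).2]), sum_const, nsmul_eq_mul, mul_comm]
  rw [hsum]
  have hab := abel_antitone T u (fun s => (lamS A s : ℝ)) ((K : ℝ) * (k : ℝ) ^ ((4 : ℝ) / 5))
    (by positivity) k hTk (gw B) (fun s t _ h _ => gw_anti B h) (gw_nonneg B k) ?_
  · refine hab.trans (by gcongr; exact gw_le B _)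
  intro b hb hbk
  have h1 : ∑ s ∈ Ioc T b, u s ≤ (omI T b v : ℝ) := by
    simp only [hu]
    rw [← Nat.cast_sum, Nat.cast_le, ← card_biUnion]
    · refine card_le_card fun p hp => ?_
      simp only [mem_biUnion, mem_filter, mem_Ioc] at hp
      obtain ⟨s, hs, ⟨hp, h2⟩, rfl⟩ := hp
      exact mem_filter.2 ⟨hp, h2.1, hs.2⟩
    · intro s _ s' _ hne
      rw [Function.onFun, disjoint_left]
      intro p hp hp'
      exact hne ((mem_filter.1 hp).2.symm.trans (mem_filter.1 hp').2)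
  refine h1.trans ?_
  have h2 : (omI T b v : ℝ) ≤ ∑ q ∈ A, (omI T b (q - 1) : ℝ) := by
    exact_mod_cast omI_mul_le T b A ht ht0 (fun q hq => (hAn q hq).2.1)
  refine h2.trans (le_trans (sum_le_sum fun q hq =>
    omI_normal_le (hAn q hq).1 (hAn q hq).2.1 (hAn q hq).2.2 hb) ?_)
  rw [sum_add_distrib, sum_const, nsmul_eq_mul, ← Nat.cast_sum, ← sum_lamS, Nat.cast_sum]
  gcongr

end Vale.Agent.P031
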