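import Vale.Agent.P031.Defs

/-!
# Common refinements of two factorisations
-/

open Finset
open scoped Classical

namespace Vale.Agent.P031

lemma dvd_prod_split {κ : Type} (s : Finset κ) (b : κ → ℕ) :
    ∀ a : ℕ, a ∣ ∏ j ∈ s, b j → ∃ d : κ → ℕ, (∀ j, d j ∣ b j) ∧ a = ∏ j ∈ s, d j := by
  induction s using Finset.induction with
  | empty =>
    intro a ha
    rw [prod_empty] at ha
    exact ⟨fun _ => 1, fun j => one_dvd _, by simpa using Nat.dvd_one.1 ha⟩
  | @insert x s hx ih =>
    intro a ha
    rw [prod_insert hx] at ha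
    obtain ⟨y, z, hy, hz, rfl⟩ := Nat.dvd_mul.1 ha
    obtain ⟨d, hd, hd'⟩ := ih z hz
    refine ⟨Function.update d x y, fun j => ?_, ?_⟩
    · rcases eq_or_ne j x with rfl | hj
      · rwa [Function.update_self]
      · rw [Function.update_of_ne hj]; exact hd j
    · rw [prod_insert hx, Function.update_self, hd']
      congr 1
      refine prod_congr rfl fun j hj => ?_
      rw [Function.update_of_ne (by rintro rfl; exact hx hj)]

/-- Two factorisations of the same positive number have a common refinement. -/
lemma exists_matrix {ι κ : Type} [Fintype κ] (s : Finset ι) (a : ι → ℕ)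
    (ha : ∀ i ∈ s, 0 < a i) :
    ∀ b : κ → ℕ, ∏ i ∈ s, a i = ∏ j, b j →
      ∃ e : ι → κ → ℕ, (∀ i ∈ s, a i = ∏ j, e i j) ∧ ∀ j, b j = ∏ i ∈ s, e i j := by
  induction s using Finset.induction with
  | empty =>
    intro b hb
    rw [prod_empty] at hb
    exact ⟨fun _ _ => 1, by simp, fun j => by
      simpa using Nat.dvd_one.1 (hb ▸ dvd_prod_of_mem b (mem_univ j))⟩
  | @insert x s hx ih =>
    intro b hb
    rw [prod_insert hx] at hb
    obtain ⟨d, hd, hd'⟩ := dvd_prod_split univ b (a x) (Dvd.intro _ hb)
    have hb' : ∏ i ∈ s, a i = ∏ j, b j / d j := by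
      have h1 : ∏ j, b j = (∏ j, d j) * ∏ j, b j / d j := by
        rw [← prod_mul_distrib]
        exact prod_congr rfl fun j _ => (Nat.mul_div_cancel' (hd j)).symm
      rw [h1, ← hd'] at hb
      exact Nat.eq_of_mul_eq_mul_left (ha x (mem_insert_self x s)) hb
    obtain ⟨e, he1, he2⟩ := ih (fun i hi => ha i (mem_insert_of_mem hi)) _ hb'
    have hne : ∀ i ∈ s, i ≠ x := fun i hi => by rintro rfl; exact hx hi
    refine ⟨Function.update e x d, fun i hi => ?_, fun j => ?_⟩
    · rcases mem_insert.1 hi with rfl | hi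
      · rw [Function.update_self]; exact hd'
      · rw [Function.update_of_ne (hne i hi)]; exact he1 i hi
    · rw [prod_insert hx, Function.update_self]
      calc b j = d j * (b j / d j) := (Nat.mul_div_cancel' (hd j)).symm
        _ = d j * ∏ i ∈ s, e i j := by rw [← he2 j]
        _ = _ := by
          congr 1
          refine prod_congr rfl fun i hi => ?_
          rw [Function.update_of_ne (hne i hi)]

end Vale.Agent.P031
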