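import Vale.Agent.P031.Coll.Core
import Vale.Agent.P031.Coll.Profile
import Vale.Agent.P031.Coll.Refine

/-!
# The collision lemma

Two representations of one value refine to a matrix; rows and columns are the forms, the weight of
the profile of the normal side is inserted, and the system estimate is summed over the shapes.
-/

open Finset
open scoped Classical

namespace Vale.Agent.P031

variable {K : ℕ}

/-- The cells. -/
abbrev CellT (K : ℕ) := Option (Fin K) × Option (Fin K)

/-- The forms. -/
abbrev FormT (K : ℕ) := Fin K ⊕ Fin K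

/-- Level of a row or column. -/
def levOf (T : ℕ) (a : Fin K → ℕ) : Option (Fin K) → ℕ
  | none => T
  | some i => a i

/-- The system of a shape. -/
def shapeSys (T k D : ℕ) (a b : Fin K → ℕ) (ha : ∀ i, a i ≤ k) (hb : ∀ i, b i ≤ k) :
    Sys (CellT K) (FormT K) where
  S := Sum.elim (fun i => ({some i} : Finset (Option (Fin K))) ×ˢ univ)
    (fun j => univ ×ˢ ({some j} : Finset (Option (Fin K))))
  cap := fun c => min (levOf T a c.1) (levOf T b c.2)
  ks := Sum.elim a b
  k := k
  D := D
  ks_le := fun f => by cases f <;> simp [ha, hb]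

/-- The present forms. -/
def presentF (a b : Fin K → ℕ) : Finset (FormT K) :=
  univ.filter (fun f => 0 < Sum.elim a b f)

lemma formsAt_card_le (T k D : ℕ) (a b : Fin K → ℕ) (ha : ∀ i, a i ≤ k) (hb : ∀ i, b i ≤ k)
    (c : CellT K) :
    (Finset.univ.filter (fun f => c ∈ (shapeSys T k D a b ha hb).S f)).card ≤ 2 := by
  refine le_trans (card_le_card (t := c.1.toFinset.image Sum.inl ∪ c.2.toFinset.image Sum.inr)
    fun f hf => ?_) ?_
  · have h := (mem_filter.1 hf).2
    cases f with
    | inl i =>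
      simp only [shapeSys, Sum.elim_inl, mem_product, Finset.mem_singleton, mem_univ, and_true] at h
      simp [h]
    | inr j =>
      simp only [shapeSys, Sum.elim_inr, mem_product, Finset.mem_singleton, mem_univ, true_and] at h
      simp [h]
  · refine le_trans (card_union_le _ _) ?_
    have h1 : ∀ o : Option (Fin K), o.toFinset.card ≤ 1 := fun o => by cases o <;> simp
    exact le_trans (Nat.add_le_add (card_image_le.trans (h1 _)) (card_image_le.trans (h1 _))) le_rfl

/-- The margin for the largest prime factor of `q - 1`. -/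
noncomputable def Dof (W : ℕ) : ℕ := ⌈Real.log (2 * ((W : ℝ) + 1))⌉₊ + 1

lemma big_prime {q T W : ℕ} (hq : q.Prime) (hT : T < kap q) (hW : bigOm (q - 1) ≤ W) :
    ∃ r : ℕ, r.Prime ∧ r ∣ q - 1 ∧ kap q ≤ kap r + Dof W := by
  have h3 := three_le_of_kap hT
  have hne : q - 1 ≠ 0 := by omega
  have hnem : (q - 1).primeFactors.Nonempty := Nat.nonempty_primeFactors.2 (by omega)
  set r := (q - 1).primeFactors.max' hnem with hr
  obtain ⟨hrp, hrd, -⟩ := Nat.mem_primeFactors.1 (max'_mem _ hnem)
  refine ⟨r, hrp, hrd, ?_⟩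
  have hprod : q - 1 ≤ r ^ W := by
    calc q - 1 = (q - 1).primeFactorsList.prod := (Nat.prod_primeFactorsList hne).symm
      _ ≤ r ^ (q - 1).primeFactorsList.length := List.prod_le_pow_card _ _ fun x hx =>
          le_max' _ _ (List.mem_toFinset.2 hx)
      _ ≤ r ^ W := Nat.pow_le_pow_right hrp.pos hW
  have hq3 : (3 : ℝ) ≤ q := by exact_mod_cast h3
  have hr2 : (2 : ℝ) ≤ r := by exact_mod_cast hrp.two_le
  have hlr : 0 < Real.log r := Real.log_pos (by linarith)
  have hlq : 0 < Real.log q := Real.log_pos (by linarith)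
  have h1 : Real.log q ≤ 2 * ((W : ℝ) + 1) * Real.log r := by
    have e1 : ((q : ℝ) - 1) ≤ (r : ℝ) ^ W := by
      have : ((q - 1 : ℕ) : ℝ) ≤ (r : ℝ) ^ W := by exact_mod_cast hprod
      rwa [Nat.cast_sub (by omega), Nat.cast_one] at this
    have e2 : Real.log ((q : ℝ) - 1) ≤ (W : ℝ) * Real.log r := by
      rw [← Real.log_pow]; exact Real.log_le_log (by linarith) e1
    have e3 : Real.log q ≤ 2 * Real.log ((q : ℝ) - 1) := by
      have e : Real.log (((q : ℝ) - 1) ^ 2) = 2 * Real.log ((q : ℝ) - 1) := by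
        rw [Real.log_pow]; norm_num
      rw [← e]
      exact Real.log_le_log (by linarith) (by nlinarith)
    nlinarith
  have h2 : Real.log (Real.log q) ≤ Real.log (2 * ((W : ℝ) + 1)) + Real.log (Real.log r) := by
    rw [← Real.log_mul (by positivity) hlr.ne']
    exact Real.log_le_log hlq h1
  have h4 : (kap q : ℝ) ≤ Real.log (Real.log q) := by
    have := exp_exp_le (one_le_kap_of_mem hT) le_rfl
    have e1 := Real.log_le_log (Real.exp_pos _) this
    rw [Real.log_exp] at e1
    have e2 := Real.log_le_log (Real.exp_pos _) e1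
    rwa [Real.log_exp] at e2
  have h5 : Real.log (Real.log r) < (kap r : ℝ) + 1 := Nat.lt_floor_add_one _
  have h6 := Nat.le_ceil (Real.log (2 * ((W : ℝ) + 1)))
  have : (kap q : ℝ) < (kap r : ℝ) + 1 + (⌈Real.log (2 * ((W : ℝ) + 1))⌉₊ : ℝ) := by linarith
  have : kap q < kap r + 1 + ⌈Real.log (2 * ((W : ℝ) + 1))⌉₊ := by exact_mod_cast this
  unfold Dof
  omega

lemma exists_enum {A : Finset ℕ} (hA : A.card ≤ K) (h0 : 0 ∉ A) :
    ∃ q : Fin K → ℕ, (univ.filter (fun i => q i ≠ 0)).image q = A ∧
      (∀ i j, q i ≠ 0 → q i = q j → i = j) := by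
  refine ⟨fun i => if h : (i : ℕ) < A.card then (A.equivFin.symm ⟨i, h⟩ : ℕ) else 0, ?_, ?_⟩
  · ext x
    simp only [mem_image, mem_filter, mem_univ, true_and]
    constructor
    · rintro ⟨i, hi, rfl⟩
      split_ifs at hi ⊢
      · exact Subtype.coe_prop _
      · exact absurd rfl hi
    · intro hx
      refine ⟨⟨(A.equivFin ⟨x, hx⟩ : ℕ), lt_of_lt_of_le (Fin.is_lt _) hA⟩, ?_, ?_⟩
      · simp only [Fin.is_lt, dite_true, Fin.eta, Equiv.symm_apply_apply]
        exact fun h => h0 (h ▸ hx)
      · simp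
  · intro i j hi hij
    simp only at hi hij
    split_ifs at hi hij with h1 h2
    · have := A.equivFin.symm.injective (Subtype.ext hij)
      exact Fin.ext (by simpa using congrArg Fin.val this)
    · have := Subtype.coe_prop (A.equivFin.symm ⟨i, h1⟩)
      rw [hij] at this
      exact absurd this h0
    all_goals exact absurd rfl hi

/-- Everything recorded about the encoding of one side. -/
structure SideOK (T k W : ℕ) (A : Finset ℕ) (t : ℕ) (a : Fin K → ℕ) (v : Option (Fin K) → ℕ) :
    Prop where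
  pos : ∀ i, 0 < v i
  none_eq : v none = t
  range : ∀ i, a i ≤ k
  absent : ∀ i, a i = 0 → v (some i) = 1
  present : ∀ i, 0 < a i → T < a i ∧ (v (some i) + 1).Prime ∧ kap (v (some i) + 1) = a i ∧
    v (some i) + 1 ∈ A ∧ bigOm (v (some i)) ≤ W
  inj : ∀ i j, 0 < a i → 0 < a j → v (some i) = v (some j) → i = j
  lam_eq : ∀ s, 0 < s → (univ.filter (fun i => s ≤ a i)).card = lamS A s
  prod_eq : ∏ i, v i = shiftProd A * t
  recover : A = (univ.filter (fun i => a i ≠ 0)).image (fun i => v (some i) + 1)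

lemma exists_side (T k W : ℕ) (A : Finset ℕ) (t : ℕ) (hA : A.card ≤ K) (ht : 0 < t)
    (hp : ∀ q ∈ A, q.Prime ∧ T < kap q ∧ kap q ≤ k ∧ bigOm (q - 1) ≤ W) :
    ∃ (a : Fin K → ℕ) (v : Option (Fin K) → ℕ), SideOK T k W A t a v := by
  have h0 : 0 ∉ A := fun h => Nat.not_prime_zero (hp 0 h).1
  obtain ⟨q, hq1, hq2⟩ := exists_enum hA h0
  have hqA : ∀ i, q i ≠ 0 → q i ∈ A := fun i hi => by
    rw [← hq1]; exact mem_image_of_mem q (mem_filter.2 ⟨mem_univ i, hi⟩)
  have hkap0 : kap 0 = 0 := by simp [kap]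
  have hpres : ∀ i, 0 < kap (q i) ↔ q i ≠ 0 := fun i => by
    refine ⟨fun h h' => by rw [h', hkap0] at h; omega, fun h => ?_⟩
    have := (hp _ (hqA i h)).2.1
    omega
  refine ⟨fun i => kap (q i),
    fun o => match o with | none => t | some i => if q i = 0 then 1 else q i - 1, ?_⟩
  have hv : ∀ i, q i ≠ 0 → (if q i = 0 then 1 else q i - 1) + 1 = q i := fun i hi => by
    rw [if_neg hi]; omega
  constructor
  · intro i
    cases i with
    | none => exact ht
    | some i =>
      simp only
      split_ifs with h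
      · exact one_pos
      · have := (hp _ (hqA i h)).1.two_le; omega
  · rfl
  · intro i
    rcases eq_or_ne (q i) 0 with h | h
    · simp [h, hkap0]
    · exact (hp _ (hqA i h)).2.2.1
  · intro i hi
    have : q i = 0 := by
      by_contra h; have := (hpres i).2 h; omega
    simp [this]
  · intro i hi
    have h := (hpres i).1 hi
    obtain ⟨h1, h2, -, h4⟩ := hp _ (hqA i h)
    simp only
    rw [hv i h]
    exact ⟨h2, h1, rfl, hqA i h, by rw [if_neg h]; exact h4⟩
  · intro i j hi hj h
    have hi' := (hpres i).1 hi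
    have hj' := (hpres j).1 hj
    apply hq2 i j hi'
    simp only at h
    rw [← hv i hi', ← hv j hj', h]
  · intro s hs
    unfold lamS
    conv_rhs => rw [← hq1, filter_image]
    rw [card_image_of_injOn]
    · congr 1
      ext i
      simp only [mem_filter, mem_univ, true_and]
      exact ⟨fun h => ⟨(hpres i).1 (by omega), h⟩, fun h => h.2⟩
    · intro i hi j _ h
      exact hq2 i j (mem_filter.1 (mem_filter.1 hi).1).2 h
  · rw [Fintype.prod_option, mul_comm]
    congr 1
    unfold shiftProd
    conv_rhs => rw [← hq1]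
    rw [prod_image (fun i hi j _ h => hq2 i j (mem_filter.1 hi).2 h), prod_filter]
    refine prod_congr rfl fun i _ => ?_
    by_cases h : q i = 0 <;> simp [h]
  · conv_lhs => rw [← hq1]
    have hset : (univ.filter (fun i => q i ≠ 0)) = univ.filter (fun i => kap (q i) ≠ 0) := by
      ext i
      simp only [mem_filter, mem_univ, true_and]
      exact ⟨fun h => ((hpres i).2 h).ne', fun h => (hpres i).1 (Nat.pos_of_ne_zero h)⟩
    rw [← hset]
    exact image_congr fun i hi => (hv i (mem_filter.1 hi).2).symm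

/-- Everything recorded about the encoding of a pair. -/
structure EncOK (T K k W : ℕ) (p : Rep × Rep) (a b : Fin K → ℕ) (e : CellT K → ℕ) : Prop where
  left : SideOK T k W p.1.1 p.1.2 a (fun i => ∏ j, e (i, j))
  right : SideOK T k W p.2.1 p.2.2 b (fun j => ∏ i, e (i, j))
  pos : ∀ c, 0 < e c
  total_eq : total e = p.1.val

lemma exists_enc {T K W k : ℕ} {β : ℝ} {p : Rep × Rep} (hp : CollPair T K W k β p) :
    ∃ a b e, EncOK T K k W p a b e := by
  obtain ⟨-, hc1, hc2, -, hn, hpr, ht1, ht2, -, -, htop1, htop2, -, hval, -, hW⟩ := hp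
  have hv0 : p.1.val ≠ 0 := by
    refine mul_ne_zero (prod_ne_zero_iff.2 fun q hq => ?_) ht1.ne'
    have := three_le_of_kap (hn q hq).2; omega
  have hOm : ∀ d, d ∣ p.1.val → bigOm d ≤ W := fun d hd =>
    le_trans (Nat.primeFactorsList_sublist_of_dvd hd hv0).length_le hW
  obtain ⟨a, va, ha⟩ := exists_side T k W p.1.1 p.1.2 hc1 ht1 (fun q hq =>
    ⟨(hn q hq).1.1, (hn q hq).2, (le_sup (f := kap) hq).trans htop1.le,
      hOm _ ((dvd_prod_of_mem _ hq).trans (Dvd.intro _ rfl))⟩)
  obtain ⟨b, vb, hb⟩ := exists_side T k W p.2.1 p.2.2 hc2 ht2 (fun q hq =>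
    ⟨(hpr q hq).1, (hpr q hq).2, (le_sup (f := kap) hq).trans htop2,
      hOm _ (hval ▸ (dvd_prod_of_mem _ hq).trans (Dvd.intro _ rfl))⟩)
  have hprod : ∏ i, va i = ∏ j, vb j := by
    rw [ha.prod_eq, hb.prod_eq]; exact hval
  obtain ⟨E, hE1, hE2⟩ := exists_matrix univ va (fun i _ => ha.pos i) vb hprod
  have hrow : (fun i => ∏ j, E i j) = va := funext fun i => (hE1 i (mem_univ i)).symm
  have hcol : (fun j => ∏ i, E i j) = vb := funext fun j => (hE2 j).symm
  refine ⟨a, b, fun c => E c.1 c.2, ⟨?_, ?_, ?_, ?_⟩⟩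
  · show SideOK T k W p.1.1 p.1.2 a (fun i => ∏ j, E i j)
    rw [hrow]; exact ha
  · show SideOK T k W p.2.1 p.2.2 b (fun j => ∏ i, E i j)
    rw [hcol]; exact hb
  · intro c
    rcases Nat.eq_zero_or_pos (E c.1 c.2) with h | h
    · have h1 := ha.pos c.1
      rw [hE1 c.1 (mem_univ _), prod_eq_zero (mem_univ c.2) h] at h1
      exact absurd h1 (lt_irrefl 0)
    · exact h
  · unfold total
    rw [Fintype.prod_prod_type]
    show ∏ i, ∏ j, E i j = _
    rw [prod_congr rfl (fun i _ => (hE1 i (mem_univ i)).symm), ha.prod_eq]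
    rfl

lemma enc_adm {T K W k : ℕ} {β : ℝ} {p : Rep × Rep} (hp : CollPair T K W k β p)
    {a b : Fin K → ℕ} {e : CellT K → ℕ} (h : EncOK T K k W p a b e)
    (ha : ∀ i, a i ≤ k) (hb : ∀ i, b i ≤ k) :
    Adm (shapeSys T k (Dof W) a b ha hb) (presentF a b) e := by
  obtain ⟨-, -, -, hdisj, -, -, -, -, hs1, hs2, -⟩ := hp
  have frow : ∀ i, fval (shapeSys T k (Dof W) a b ha hb) e (Sum.inl i) = ∏ j, e (some i, j) := by
    intro i
    simp only [fval, shapeSys, Sum.elim_inl]
    rw [prod_product, prod_singleton]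
  have fcol : ∀ j, fval (shapeSys T k (Dof W) a b ha hb) e (Sum.inr j) = ∏ i, e (i, some j) := by
    intro j
    simp only [fval, shapeSys, Sum.elim_inr]
    rw [prod_product]
    simp
  have side : ∀ {A : Finset ℕ} {t : ℕ} {c : Fin K → ℕ} {v : Option (Fin K) → ℕ},
      SideOK T k W A t c v → Smooth T t → ∀ o r, r.Prime → r ∣ v o → kap r ≤ levOf T c o := by
    intro A t c v hv hs o r hr hrd
    cases o with
    | none =>
      have := hv.none_eq
      exact hs r (Nat.mem_primeFactors.2 ⟨hr, this ▸ hrd, this ▸ (hv.pos none).ne'⟩)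
    | some i =>
      rcases Nat.eq_zero_or_pos (c i) with h0 | h0
      · rw [hv.absent i h0] at hrd
        exact absurd (Nat.dvd_one.1 hrd) hr.ne_one
      · obtain ⟨-, hp, hk, -, -⟩ := hv.present i h0
        show kap r ≤ c i
        rw [← hk]
        exact kap_mono hr.two_le (le_trans (Nat.le_of_dvd (hv.pos _) hrd) (Nat.le_succ _))
  refine ⟨fun c => ⟨h.pos c, fun r hr => ?_⟩, fun f hf => ?_, fun f hf g hg hne => ?_⟩
  · obtain ⟨hrp, hrd, -⟩ := Nat.mem_primeFactors.1 hr
    refine le_min (side h.left hs1 c.1 r hrp (hrd.trans ?_))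
      (side h.right hs2 c.2 r hrp (hrd.trans ?_))
    · exact dvd_prod_of_mem (fun j => e (c.1, j)) (mem_univ c.2)
    · exact dvd_prod_of_mem (fun i => e (i, c.2)) (mem_univ c.1)
  · have hf' := (mem_filter.1 hf).2
    cases f with
    | inl i =>
      obtain ⟨hT, hp, hk, -, hW⟩ := h.left.present i hf'
      rw [frow]
      refine ⟨hp, hk, ?_⟩
      obtain ⟨r, hr, hrd, hrk⟩ := big_prime hp (hk.symm ▸ hT) (by simpa using hW)
      exact ⟨r, hr, by simpa using hrd, by simpa [shapeSys] using hk ▸ hrk⟩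
    | inr j =>
      obtain ⟨hT, hp, hk, -, hW⟩ := h.right.present j hf'
      rw [fcol]
      refine ⟨hp, hk, ?_⟩
      obtain ⟨r, hr, hrd, hrk⟩ := big_prime hp (hk.symm ▸ hT) (by simpa using hW)
      exact ⟨r, hr, by simpa using hrd, by simpa [shapeSys] using hk ▸ hrk⟩
  · have hf' := (mem_filter.1 hf).2
    have hg' := (mem_filter.1 hg).2
    intro heq
    cases f with
    | inl i =>
      cases g with
      | inl i' =>
        rw [frow, frow] at heq
        exact hne (congrArg Sum.inl (h.left.inj i i' hf' hg' heq))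
      | inr j =>
        rw [frow, fcol] at heq
        obtain ⟨-, -, -, h1, -⟩ := h.left.present i hf'
        obtain ⟨-, -, -, h2, -⟩ := h.right.present j hg'
        simp only [heq] at h1
        exact disjoint_left.1 hdisj h1 h2
    | inr j =>
      cases g with
      | inl i =>
        rw [frow, fcol] at heq
        obtain ⟨-, -, -, h1, -⟩ := h.left.present i hg'
        obtain ⟨-, -, -, h2, -⟩ := h.right.present j hf'
        simp only [← heq] at h1
        exact disjoint_left.1 hdisj h1 h2
      | inr j' =>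
        rw [fcol, fcol] at heq
        exact hne (congrArg Sum.inr (h.right.inj j j' hf' hg' heq))

lemma card_filter_option (T s : ℕ) (hs : T < s) (a : Fin K → ℕ) :
    (univ.filter (fun o => s ≤ levOf T a o)).card = (univ.filter (fun i => s ≤ a i)).card := by
  rw [← card_map Function.Embedding.some (s := univ.filter (fun i => s ≤ a i))]
  congr 1
  ext o
  simp only [mem_map, mem_filter, mem_univ, true_and, Function.Embedding.some_apply]
  cases o with
  | none => simp [levOf]; omega
  | some i => simp [levOf]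

/-- Pointwise inequality between the two profiles. -/
lemma profile_pointwise (x y : ℕ) (hx : 1 ≤ x) :
    Real.log (max 1 (y : ℝ)) * x + (x : ℝ) * y * (1 / max 1 (y : ℝ)) - x - y ≤ Qf x - 1 := by
  have hxR : (1 : ℝ) ≤ x := by exact_mod_cast hx
  have hlx : 0 ≤ Real.log (x : ℝ) := Real.log_nonneg hxR
  unfold Qf
  rcases Nat.eq_zero_or_pos y with rfl | hy
  · norm_num; nlinarith
  · have hyR : (1 : ℝ) ≤ y := by exact_mod_cast hy
    rw [max_eq_right hyR]
    have h := Real.log_le_sub_one_of_pos (show (0 : ℝ) < y / x by positivity)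
    rw [Real.log_div (by linarith) (by linarith)] at h
    have h2 := mul_le_mul_of_nonneg_left h (show (0 : ℝ) ≤ x by linarith)
    have e1 : (x : ℝ) * ((y : ℝ) / x - 1) = y - x := by field_simp
    have e2 : (x : ℝ) * y * (1 / (y : ℝ)) = x := by field_simp
    rw [e1] at h2
    rw [e2]
    nlinarith

end Vale.Agent.P031
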